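import Vale.Agent.P200.Split.Induct

/-!
Lex-plus-powers spaces for regular sequences of forms of prime power degree `q` in characteristic
`p`, from factorisations of such sequences over algebraically closed fields.
-/

namespace Vale.Agent.P200.PPow

open MvPolynomial Module
open scoped TensorProduct

universe u

variable {K : Type u} [Field K] {p q : ℕ}

/-- A commuting factorisation is a factorisation up to scalars. -/
lemma factorises_of_comm {n : ℕ}
    (H : ∀ f : Fin n → MvPolynomial (Fin n) K, (∀ i, (f i).IsHomogeneous q) →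
      RegList ⊥ (List.ofFn f) →
      ∃ (D : Type u) (_ : DivisionRing D) (_ : Algebra K D) (g : Fin n → Fin n → D),
        (∀ k l, k ≠ l → ∀ i j, g k i * g l j = g l j * g k i) ∧
        (∀ k, (∑ i, g k i ⊗ₜ[K] Quad.mkA f (X i) : D ⊗[K] Quad.Quo f) ^ q = 0) ∧
        ∃ E : Fin n → Fin n → D, ∀ i j, ∑ k, E i k * g k j = if i = j then 1 else 0) :
    Skew.Factorises K n q := by
  intro f hf hreg
  obtain ⟨D, iD, iA, g, hcomm, hpow, E, hE⟩ := H f hf hreg
  exact ⟨D, iD, iA, g, fun _ _ => 1, E, fun _ _ => one_ne_zero,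
    fun k l hkl i j => by rw [one_smul]; exact hcomm k l hkl i j, hpow, hE⟩

/-- Factorisations give models for the equal degree `q`. -/
lemma models_of_factorises {n : ℕ} (hq : 0 < q) (H : Skew.Factorises K n q) :
    Cyc.Models K (fun _ : Fin n => q) := by
  intro f hf hreg
  obtain ⟨D, iD, iA, g, om, E, hom, hcomm, hpow, hE⟩ := H f hf hreg
  exact Cyc.hasModel f g (fun k l h => ⟨om k l, hom k l, hcomm k l h⟩) hpow E hE (fun _ => hq) hf hreg

/-- Factorisations over algebraically closed fields of characteristic `p` give good growth for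
cores of degree at most `q`. -/
lemma goodCore_of_factorises [CharP K p] (hq : 0 < q)
    (H : ∀ (L : Type u) [Field L] [IsAlgClosed L] [CharP L p] (n : ℕ), Skew.Factorises L n q) :
    Split.GoodCore K q := by
  intro m a ha h2 h1 htail f hf hreg I hI hfI d
  have : CharP (AlgebraicClosure K) p :=
    charP_of_injective_algebraMap (algebraMap K (AlgebraicClosure K)).injective p
  have hpos : ∀ i, 0 < a i := fun i => by linarith [h2 i]
  obtain ⟨s, hs, hd⟩ := Cyc.exists_monomialIdeal hpos
    (Skew.models_two_low (H (AlgebraicClosure K) (m + 2)) hpos (ha (Fin.zero_le _)) h1 htail)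
    le_rfl hf hreg hI hfI
  obtain ⟨T, hT⟩ := Box.exists_lpp K le_rfl ha s hs
  exact Split.good_of_sets (T := T) (fun t => (hT t).1)
    (fun t e he ⟨i, hi⟩ => (hT t).2.1 e he ⟨i, by simpa using hi⟩)
    (fun t e he e' hd' h h' => (hT t).2.2.1 e he e' hd' (fun i => by simpa using h i)
      (fun i => by simpa using h' i))
    (fun t => (hT t).2.2.2.1.trans (hd t)) (fun t => (hT t).2.2.2.2) d

/-- Factorisations over algebraically closed fields of characteristic `p` give lex-plus-powers
spaces closed under the variables for regular sequences of forms of degree `q`. -/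
theorem exists_lpp_of_factorises [CharP K p] (hq : 0 < q)
    (H : ∀ (L : Type u) [Field L] [IsAlgClosed L] [CharP L p] (n : ℕ), Skew.Factorises L n q)
    {n c : ℕ} (hcn : c ≤ n) {f : Fin c → MvPolynomial (Fin n) K}
    (hf : ∀ i, (f i).IsHomogeneous q) (hreg : RegList ⊥ (List.ofFn f))
    {I : Ideal (MvPolynomial (Fin n) K)} (hI : HomogI I) (hfI : ∀ i, f i ∈ I) :
    ∃ T : ℕ → Finset (Fin n →₀ ℕ), ∀ d,
      (∀ e ∈ T d, e.degree = d) ∧
      (∀ e : Fin n →₀ ℕ, e.degree = d → (∃ i : Fin c, q ≤ e (Fin.castLE hcn i)) → e ∈ T d) ∧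
      (∀ e ∈ T d, ∀ e' : Fin n →₀ ℕ, e'.degree = d →
        (∀ i : Fin c, e (Fin.castLE hcn i) < q) → (∀ i : Fin c, e' (Fin.castLE hcn i) < q) →
        toLex e < toLex e' → e' ∈ T d) ∧
      (T d).card = finrank K (degPart d I) ∧
      ∀ e ∈ T d, ∀ v, e + Finsupp.single v 1 ∈ T (d + 1) := by
  have : CharP (AlgebraicClosure K) p :=
    charP_of_injective_algebraMap (algebraMap K (AlgebraicClosure K)).injective p
  obtain ⟨s, hs, hd⟩ := Cyc.exists_monomialIdeal (a := fun _ => q) (fun _ => hq)
    (models_of_factorises hq (H (AlgebraicClosure K) c)) hcn hf hreg hI hfI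
  obtain ⟨T, hT⟩ := Box.exists_lpp K hcn (a := fun _ => q) (fun _ _ _ => le_rfl) s hs
  exact ⟨T, fun d => ⟨(hT d).1, (hT d).2.1, (hT d).2.2.1, (hT d).2.2.2.1.trans (hd d),
    (hT d).2.2.2.2⟩⟩

end Vale.Agent.P200.PPow
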