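import Vale.Agent.P200.PPow.Assemble
import Vale.Agent.P200.PPow.Final

/-!
Factorisations for regular sequences of forms of degree `p ^ (k + 1)` in characteristic `p`.
-/

namespace Vale.Agent.P200.PPow

universe u

/-- Forms of degree `p ^ (k + 1)` in characteristic `p` factorise. -/
theorem factorises (p k : ℕ) (hp : p.Prime) (K : Type u) [Field K] [IsAlgClosed K] [CharP K p]
    (n : ℕ) : Skew.Factorises K n (p ^ (k + 1)) :=
  have : Fact p.Prime := ⟨hp⟩
  factorises_of_comm fun f hf hreg => by
    obtain ⟨r, R, iR, iK, iP, iT, iF, iM, iN, iNt, ⟨B⟩⟩ := exists_blocks K p k f hf hreg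
    exact B.exists_factorisation

end Vale.Agent.P200.PPow
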