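import Vale.Agent.P200.Prime.Localise
import Vale.Agent.P200.Quad.Rows
import Vale.Agent.P200.Prime.Copies
import Vale.Agent.P200.Cyc.Reduce

/-!
From a domain, free of finite rank over central parameters, with commuting blocks of elements, to
models for regular sequences of forms of one degree.
-/

namespace Vale.Agent.P200.PPow

open MvPolynomial Module
open scoped TensorProduct
open Vale.Agent.P200.Prime (Par Fr Loc toL)

universe u

variable {K : Type u} [Field K]

/-- A power identity for all scalars becomes an identity of tensors modulo forms in the ideal. -/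
lemma tensor_pow_eq_zero [Infinite K] {q n : ℕ} {L : Type*} [Fintype L] {D : Type u} [Ring D]
    [Algebra K D] (f : Fin n → MvPolynomial (Fin n) K) (h : L → MvPolynomial (Fin n) K)
    (hh : ∀ l, h l ∈ Ideal.span (Set.range f)) (g : Fin n → D) (z : L → D)
    (hpow : ∀ c : Fin n → K, (∑ i, c i • g i) ^ q = ∑ l, eval c (h l) • z l) :
    (∑ i, g i ⊗ₜ[K] Quad.mkA f (X i) : D ⊗[K] Quad.Quo f) ^ q = 0 := by
  have hpoly : (∑ i, g i ⊗ₜ[K] (X i : MvPolynomial (Fin n) K)) ^ q -
      ∑ l, z l ⊗ₜ[K] h l = 0 := by
    refine Prime.eq_zero_of_values _ fun c => ?_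
    let ev : D ⊗[K] MvPolynomial (Fin n) K →ₐ[K] D :=
      (Algebra.TensorProduct.rid K K D).toAlgHom.comp
        (Algebra.TensorProduct.map (AlgHom.id K D) (aeval c))
    have hev : ∀ x, TensorProduct.rid K _
        ((aeval c : MvPolynomial (Fin n) K →ₐ[K] K).toLinearMap.lTensor _ x) = ev x := by
      intro x
      induction x using TensorProduct.induction_on with
      | zero => simp only [map_zero]
      | add a b ha hb => simp only [map_add, ha, hb]
      | tmul a u => simp [ev]
    rw [hev, map_sub, map_pow, map_sum, map_sum, sub_eq_zero]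
    simpa [ev] using hpow c
  have h2 := congrArg
    (Algebra.TensorProduct.map (AlgHom.id K D)
      (Ideal.Quotient.mkₐ K (Ideal.span (Set.range f)))) hpoly
  rw [map_sub, map_pow, map_sum, map_sum, map_zero, sub_eq_zero] at h2
  simp only [Algebra.TensorProduct.map_tmul, AlgHom.id_apply] at h2
  refine h2.trans (Finset.sum_eq_zero fun l _ => ?_)
  rw [Ideal.Quotient.mkₐ_eq_mk, Ideal.Quotient.eq_zero_iff_mem.2 (hh l), TensorProduct.tmul_zero]

/-- A domain, free of finite rank over central parameters, with commuting blocks of elements whose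
`q`-th powers lie in the forms, and with independence over the other blocks. -/
structure Blocks (K : Type u) [Field K] {n : ℕ} (f : Fin n → MvPolynomial (Fin n) K) (q r : ℕ)
    (R : Type u) [Ring R] [Algebra K R] [Algebra (Par K r) R] where
  /-- the blocks -/
  xi : Fin n → Fin n → R
  /-- the number of forms -/
  size : ℕ
  /-- the forms in the ideal -/
  h : Fin size → MvPolynomial (Fin n) K
  /-- their coefficients -/
  z : Fin n → Fin size → R
  /-- the elements avoiding a block -/
  avoid : Fin n → Submodule (Par K r) R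
  h_mem : ∀ l, h l ∈ Ideal.span (Set.range f)
  comm : ∀ k l, k ≠ l → ∀ i j, xi k i * xi l j = xi l j * xi k i
  pow : ∀ k (c : Fin n → K), (∑ i, c i • xi k i) ^ q = ∑ l, eval c (h l) • z k l
  one_mem : ∀ k, (1 : R) ∈ avoid k
  mul_mem : ∀ k l, l ≠ k → ∀ i, ∀ T ∈ avoid k, xi l i * T ∈ avoid k
  indep : ∀ k (T : Fin n → R), (∀ i, T i ∈ avoid k) → ∑ i, xi k i * T i = 0 → T = 0

namespace Blocks

variable {n q r : ℕ} {f : Fin n → MvPolynomial (Fin n) K} {R : Type u} [Ring R] [Algebra K R]
  [Algebra (Par K r) R] [IsScalarTower K (Par K r) R] (B : Blocks K f q r R)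

/-- An element of the localised algebra. -/
noncomputable def xiL (k i : Fin n) : Loc K r R := toL (B.xi k i)

/-- The localisation of the elements avoiding a block. -/
noncomputable def avoidL (k : Fin n) : Submodule (Fr K r) (Loc K r R) :=
  Submodule.span (Fr K r) (toL '' (B.avoid k : Set R))

omit [IsScalarTower K (Par K r) R] in
lemma adjoin_le_avoidL (k : Fin n) {A : Set (Loc K r R)}
    (hA : ∀ y ∈ A, ∃ l i, l ≠ k ∧ y = B.xiL l i) {x : Loc K r R}
    (hx : x ∈ Algebra.adjoin (Fr K r) A) : x ∈ B.avoidL k := by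
  have key : ∀ w ∈ B.avoidL k, x * w ∈ B.avoidL k := by
    induction hx using Algebra.adjoin_induction with
    | mem y hy =>
      obtain ⟨l, i, hl, rfl⟩ := hA y hy
      intro w hw
      induction hw using Submodule.span_induction with
      | mem w hw =>
        obtain ⟨T, hT, rfl⟩ := hw
        rw [xiL, ← map_mul]
        exact Submodule.subset_span ⟨_, B.mul_mem k l hl i T hT, rfl⟩
      | zero => rw [mul_zero]; exact zero_mem _
      | add a b _ _ ha hb => rw [mul_add]; exact add_mem ha hb
      | smul a w _ hw => rw [mul_smul_comm]; exact Submodule.smul_mem _ _ hw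
    | algebraMap a => intro w hw; rw [← Algebra.smul_def]; exact Submodule.smul_mem _ _ hw
    | add a b _ _ ha hb => intro w hw; rw [add_mul]; exact add_mem (ha w hw) (hb w hw)
    | mul a b _ _ ha hb => intro w hw; rw [mul_assoc]; exact ha _ (hb w hw)
  simpa using key 1 (Submodule.subset_span ⟨1, B.one_mem k, map_one _⟩)

omit [IsScalarTower K (Par K r) R] in
lemma eq_zero_of_sum_xiL_mul [Module.Free (Par K r) R] (k : Fin n) (w : Fin n → Loc K r R)
    (hw : ∀ i, w i ∈ B.avoidL k) (hsum : ∑ i, B.xiL k i * w i = 0) : w = 0 := by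
  classical
  choose s hs y hy hsy using fun i => Prime.exists_clear_mem (B.avoid k) (hw i)
  set P := ∏ i, s i
  set T := fun i => (∏ j ∈ Finset.univ.erase i, s j) • y i
  have hT : ∀ i, P • w i = toL (T i) := fun i => by
    rw [map_smul, ← hsy, ← mul_smul, Finset.prod_erase_mul _ _ (Finset.mem_univ i)]
  have h0 : ∑ i, B.xi k i * T i = 0 := by
    apply Prime.toL_injective (K := K) (r := r)
    rw [map_zero, ← smul_zero (A := Loc K r R) P, ← hsum, Finset.smul_sum, map_sum]
    refine Finset.sum_congr rfl fun i _ => ?_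
    rw [map_mul, ← hT, mul_smul_comm]
    rfl
  have hT0 : T = 0 := B.indep k T (fun i => Submodule.smul_mem _ _ (hy i)) h0
  funext i
  refine Prime.smul_cancel (s := P) (Finset.prod_ne_zero_iff.2 fun i _ => hs i) ?_
  rw [hT i, congrFun hT0 i]
  exact map_zero _

lemma xiL_pow (k : Fin n) (c : Fin n → K) :
    (∑ i, c i • B.xiL k i) ^ q = ∑ l, eval c (B.h l) • (toL (B.z k l) : Loc K r R) := by
  have h := congrArg (AlgHom.restrictScalars K (toL : R →ₐ[Par K r] Loc K r R)) (B.pow k c)
  simp only [map_pow, map_sum, map_smul] at h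
  exact h

omit [IsScalarTower K (Par K r) R] in
/-- The matrix of the blocks has trivial left kernel. -/
lemma independent [Module.Free (Par K r) R] [NoZeroDivisors (Loc K r R)]
    [Nontrivial (Loc K r R)] [FiniteDimensional (Fr K r) (Loc K r R)]
    (b : Fin n → Loc K r R) (hb : ∀ i, ∑ l, b l * B.xiL l i = 0) : b = 0 := by
  classical
  by_contra hbne
  obtain ⟨l₀, hl₀⟩ := Function.ne_iff.1 hbne
  obtain ⟨k, hk, hmax⟩ := (Finset.univ.filter fun l => b l ≠ 0).exists_max_image id
    ⟨l₀, by simpa using hl₀⟩
  simp only [Finset.mem_filter, Finset.mem_univ, true_and, id] at hk hmax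
  obtain ⟨w, hw0, hwA, hlow⟩ :=
    Quad.exists_kernel_adjoin (F := Fr K r) (fun l i => B.xiL l i) k
  have hk0 : b k * ∑ i, B.xiL k i * w i = 0 := by
    calc b k * ∑ i, B.xiL k i * w i = ∑ l, b l * ∑ i, B.xiL l i * w i := by
          symm
          refine Finset.sum_eq_single k ?_ ?_
          · intro l _ hne'
            rcases lt_or_gt_of_ne hne' with hlt | hgt
            · rw [hlow l hlt, mul_zero]
            · rw [show b l = 0 from by_contra fun h => not_lt.2 (hmax l h) hgt, zero_mul]
          · simp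
      _ = ∑ i, (∑ l, b l * B.xiL l i) * w i := by
          simp only [Finset.mul_sum, Finset.sum_mul, mul_assoc]
          exact Finset.sum_comm
      _ = 0 := Finset.sum_eq_zero fun i _ => by rw [hb i, zero_mul]
  refine hw0 (B.eq_zero_of_sum_xiL_mul k w
    (fun i => B.adjoin_le_avoidL k ?_ (hwA i)) ((mul_eq_zero.1 hk0).resolve_left hk))
  rintro y ⟨l, j, hl, rfl⟩
  exact ⟨l, j, hl.ne, rfl⟩

include B in
/-- Blocks in a domain give commuting linear forms over a division ring with invertible matrix
whose `q`-th powers vanish modulo the forms. -/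
theorem exists_factorisation [IsAlgClosed K] [Module.Free (Par K r) R]
    [Module.Finite (Par K r) R] [NoZeroDivisors R] [Nontrivial R] :
    ∃ (D : Type u) (_ : DivisionRing D) (_ : Algebra K D) (g : Fin n → Fin n → D),
      (∀ k l, k ≠ l → ∀ i j, g k i * g l j = g l j * g k i) ∧
      (∀ k, (∑ i, g k i ⊗ₜ[K] Quad.mkA f (X i) : D ⊗[K] Quad.Quo f) ^ q = 0) ∧
      ∃ E : Fin n → Fin n → D, ∀ i j, ∑ k, E i k * g k j = if i = j then 1 else 0 := by
  classical
  have hzero : NoZeroDivisors (Loc K r R) := Prime.noZeroDivisors_loc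
  have hne : Nontrivial (Loc K r R) := by
    refine ⟨⟨toL 1, 0, fun h => one_ne_zero (α := R) ?_⟩⟩
    exact Prime.toL_injective (h.trans (map_zero _).symm)
  have hind := B.independent
  have hcomm : ∀ k l, k ≠ l → ∀ i j, B.xiL k i * B.xiL l j = B.xiL l j * B.xiL k i := by
    intro k l h i j
    rw [xiL, xiL, ← map_mul, ← map_mul, B.comm k l h i j]
  have hpow := fun k => tensor_pow_eq_zero f B.h B.h_mem (fun i => B.xiL k i) _ (B.xiL_pow k)
  have hdom : IsDomain (Loc K r R) := NoZeroDivisors.to_isDomain _
  let instD : DivisionRing (Loc K r R) := divisionRingOfFiniteDimensional (Fr K r) (Loc K r R)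
  exact ⟨Loc K r R, instD, inferInstance, B.xiL, hcomm, hpow, Quad.exists_inverse B.xiL hind⟩

end Blocks

/-- Blocks for every regular sequence of forms of degree `q` give models. -/
theorem models_of_blocks [IsAlgClosed K] {n q : ℕ} (hq : 0 < q) {a : Fin n → ℕ}
    (ha : ∀ i, a i = q)
    (H : ∀ f : Fin n → MvPolynomial (Fin n) K, (∀ i, (f i).IsHomogeneous q) →
      RegList ⊥ (List.ofFn f) →
      ∃ (r : ℕ) (R : Type u) (_ : Ring R) (_ : Algebra K R) (_ : Algebra (Par K r) R)
        (_ : IsScalarTower K (Par K r) R) (_ : Module.Free (Par K r) R)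
        (_ : Module.Finite (Par K r) R) (_ : NoZeroDivisors R) (_ : Nontrivial R),
        Nonempty (Blocks K f q r R)) :
    Cyc.Models K a := by
  obtain rfl : a = fun _ => q := funext ha
  intro f hf hreg
  obtain ⟨r, R, iR, iK, iP, iT, iF, iM, iN, iNt, ⟨B⟩⟩ := H f hf hreg
  obtain ⟨D, iD, iA, g, hcomm, hpow, E, hE⟩ := B.exists_factorisation
  exact Cyc.hasModel f g (fun k l h => ⟨1, one_ne_zero, fun i j => by
    rw [one_smul]; exact hcomm k l h i j⟩) hpow E hE (fun _ => hq) hf hreg

end Vale.Agent.P200.PPow
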