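import Mathlib

/-!
Forms of degree `p * i` without common zero give forms of degree `p` on the exponents of degree `i`
without common zero.
-/

namespace Vale.Agent.P200.PPow

open MvPolynomial

/-- The exponents of degree `i`. -/
abbrev Expn (n i : ℕ) : Type := {α : Fin n →₀ ℕ // α.degree = i}

instance {n i : ℕ} : Finite (Expn n i) :=
  ((Finsupp.finite_of_degree_le (σ := Fin n) i).subset
    (s := {α : Fin n →₀ ℕ | α.degree ≤ i}) fun _ h => le_of_eq h).to_subtype

noncomputable instance {n i : ℕ} : Fintype (Expn n i) := Fintype.ofFinite _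

variable (K : Type*) [Field K]

/-- The substitution of monomials for the exponents. -/
noncomputable def mult (n i : ℕ) : MvPolynomial (Expn n i) K →ₐ[K] MvPolynomial (Fin n) K :=
  aeval fun α => monomial α.1 1

variable {K} {n i : ℕ}

lemma mult_X (α : Expn n i) : mult K n i (X α) = monomial α.1 1 := aeval_X _ _

/-- A monomial of degree `p * i` is a product of `p` monomials of degree `i`. -/
lemma exists_lift_monomial : ∀ (p : ℕ) (γ : Fin n →₀ ℕ), γ.degree = p * i →
    ∃ G : MvPolynomial (Expn n i) K, G.IsHomogeneous p ∧ mult K n i G = monomial γ 1 := by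
  intro p
  induction p with
  | zero =>
    intro γ hγ
    rw [Nat.zero_mul, Finsupp.degree_eq_zero_iff] at hγ
    exact ⟨1, isHomogeneous_one _ _, by simp [hγ]⟩
  | succ p ih =>
    intro γ hγ
    have key : ∀ j, j ≤ γ.degree → ∃ α, α ≤ γ ∧ α.degree = j := by
      intro j
      induction j with
      | zero => exact fun _ => ⟨0, zero_le, by simp⟩
      | succ j ihj =>
        intro hj
        obtain ⟨α, hle, hα⟩ := ihj (by omega)
        obtain ⟨v, hv⟩ : ∃ v, α v < γ v := by
          by_contra hne
          push Not at hne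
          have : α = γ := le_antisymm hle fun v => hne v
          rw [this] at hα
          omega
        refine ⟨α + Finsupp.single v 1, fun w => ?_, by simp [map_add, hα, Finsupp.degree_single]⟩
        rcases eq_or_ne w v with rfl | h
        · simp; omega
        · simpa [Finsupp.single_eq_of_ne h] using hle w
    obtain ⟨α, hle, hα⟩ := key i (by rw [hγ, Nat.succ_mul]; omega)
    have hsum : α + (γ - α) = γ := add_tsub_cancel_of_le hle
    obtain ⟨G, hG, hGm⟩ := ih (γ - α) (by
      have := congrArg Finsupp.degree hsum
      rw [map_add, hα, hγ, Nat.succ_mul] at this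
      omega)
    refine ⟨X ⟨α, hα⟩ * G, Nat.add_comm 1 p ▸ (isHomogeneous_X K _).mul hG, ?_⟩
    rw [map_mul, mult_X, hGm, monomial_mul, one_mul, hsum]

/-- A form of degree `p * i` lifts to a form of degree `p` on the exponents. -/
lemma exists_lift {p : ℕ} {f : MvPolynomial (Fin n) K} (hf : f.IsHomogeneous (p * i)) :
    ∃ G : MvPolynomial (Expn n i) K, G.IsHomogeneous p ∧ mult K n i G = f := by
  classical
  have h : ∀ γ ∈ f.support, ∃ G : MvPolynomial (Expn n i) K,
      G.IsHomogeneous p ∧ mult K n i G = monomial γ 1 := fun γ hγ =>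
    exists_lift_monomial p γ (by
      rw [← hf (mem_support_iff.1 hγ), Finsupp.degree_eq_weight_one]
      rfl)
  choose G hG hGm using h
  refine ⟨∑ γ ∈ f.support.attach, C (coeff γ.1 f) * G γ.1 γ.2,
    IsHomogeneous.sum _ _ _ fun γ _ => (hG γ.1 γ.2).C_mul _, ?_⟩
  rw [map_sum]
  simp only [map_mul, hGm, algHom_C, MvPolynomial.algebraMap_eq, C_mul_monomial, mul_one]
  rw [Finset.sum_attach _ fun γ => monomial γ (coeff γ f)]
  exact f.as_sum.symm

/-- The value of a form at a multiple of a Veronese point. -/
lemma eval_veronese {p : ℕ} {G : MvPolynomial (Expn n i) K} (hG : G.IsHomogeneous p) (c : K)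
    (ψ : Fin n → K) :
    eval (fun α : Expn n i => c * eval ψ (monomial α.1 1)) G = c ^ p * eval ψ (mult K n i G) := by
  conv_lhs => rw [G.as_sum]
  conv_rhs => rw [G.as_sum]
  rw [map_sum, map_sum, map_sum, Finset.mul_sum]
  refine Finset.sum_congr rfl fun m hm => ?_
  have hdeg : ∑ α ∈ m.support, m α = p := by
    have := hG (mem_support_iff.1 hm)
    rwa [show (1 : Expn n i → ℕ) = fun _ => 1 from rfl, ← Finsupp.degree_eq_weight_one,
      Finsupp.degree_apply] at this
  rw [eval_monomial, mult, aeval_monomial, map_mul, MvPolynomial.algebraMap_eq, eval_C,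
    map_finsuppProd]
  simp only [Finsupp.prod, mul_pow, map_pow]
  rw [Finset.prod_mul_distrib, Finset.prod_pow_eq_pow_sum, hdeg]
  ring

section Exchange

variable {lam : Expn n i → K}

/-- A point of the Veronese cone vanishing at all pure powers is zero. -/
lemma eq_zero_of_exchange
    (hex : ∀ α β α' β' : Expn n i, α.1 + β.1 = α'.1 + β'.1 →
      lam α * lam β = lam α' * lam β')
    (hi : 0 < i)
    (h0 : ∀ α : Expn n i, ∀ j, α.1 j = i → lam α = 0) : lam = 0 := by
  suffices key : ∀ d, ∀ α : Expn n i, ∀ j, 0 < α.1 j → i - α.1 j = d → lam α = 0 by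
    funext α
    obtain ⟨j, hj⟩ : ∃ j, α.1 j ≠ 0 := by
      by_contra hne
      push Not at hne
      have := α.2
      rw [show α.1 = 0 from Finsupp.ext hne, map_zero] at this
      omega
    exact key _ α j (Nat.pos_of_ne_zero hj) rfl
  intro d
  induction d with
  | zero =>
    intro α j _ hd
    have := (Finsupp.le_degree j α.1).trans_eq α.2
    exact h0 α j (by omega)
  | succ d ih =>
    intro α j hj hd
    obtain ⟨l, hlj, hl⟩ : ∃ l, l ≠ j ∧ 0 < α.1 l := by
      by_contra hne
      push Not at hne
      have : α.1 = Finsupp.single j (α.1 j) := Finsupp.ext fun l => by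
        rcases eq_or_ne l j with rfl | h
        · simp
        · simpa [Finsupp.single_eq_of_ne h] using hne l h
      have h2 := α.2
      rw [this, Finsupp.degree_single] at h2
      omega
    set u := α.1 - Finsupp.single j 1
    set w := α.1 - Finsupp.single l 1
    have hu : Finsupp.single j 1 + u = α.1 :=
      add_tsub_cancel_of_le (Finsupp.single_le_iff.2 hj)
    have hw : Finsupp.single l 1 + w = α.1 :=
      add_tsub_cancel_of_le (Finsupp.single_le_iff.2 hl)
    have hud := congrArg Finsupp.degree hu
    have hwd := congrArg Finsupp.degree hw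
    rw [map_add, Finsupp.degree_single, α.2] at hud hwd
    have h := hex α α ⟨Finsupp.single j 1 + w, by rw [map_add, Finsupp.degree_single]; omega⟩
      ⟨Finsupp.single l 1 + u, by rw [map_add, Finsupp.degree_single]; omega⟩ (by
        calc α.1 + α.1 = (Finsupp.single j 1 + u) + (Finsupp.single l 1 + w) := by rw [hu, hw]
          _ = _ := by ext v; simp only [Finsupp.add_apply]; ring)
    have hwj : (Finsupp.single j 1 + w : Fin n →₀ ℕ) j = α.1 j + 1 := by
      simp [w, Finsupp.single_eq_of_ne hlj.symm]
      omega
    rw [ih ⟨Finsupp.single j 1 + w, by rw [map_add, Finsupp.degree_single]; omega⟩ j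
      (by rw [hwj]; omega) (by rw [hwj]; omega), zero_mul] at h
    exact mul_self_eq_zero.1 h

/-- A point of the Veronese cone with nonzero pure power is a multiple of a Veronese point. -/
lemma eq_veronese_of_exchange
    (hex : ∀ α β α' β' : Expn n i, α.1 + β.1 = α'.1 + β'.1 →
      lam α * lam β = lam α' * lam β')
    (hi : 0 < i) {j : Fin n} {P : Expn n i} (hP : P.1 j = i) (hne : lam P ≠ 0) :
    ∃ ψ : Fin n → K, ψ j = 1 ∧ ∀ α : Expn n i, lam α = lam P * eval ψ (monomial α.1 1) := by
  classical
  have hPe : P.1 = Finsupp.single j i := by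
    have h : Finsupp.single j i ≤ P.1 := Finsupp.single_le_iff.2 hP.ge
    have hs : Finsupp.single j i + (P.1 - Finsupp.single j i) = P.1 := add_tsub_cancel_of_le h
    have hd := congrArg Finsupp.degree hs
    rw [map_add, Finsupp.degree_single, P.2] at hd
    rw [← hs, (Finsupp.degree_eq_zero_iff _).1 (by omega : (P.1 - Finsupp.single j i).degree = 0),
      add_zero]
  let nb : Fin n → Expn n i := fun l =>
    ⟨Finsupp.single j (i - 1) + Finsupp.single l 1, by
      rw [map_add, Finsupp.degree_single, Finsupp.degree_single]; omega⟩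
  let ψ : Fin n → K := fun l => lam (nb l) / lam P
  have hψj : ψ j = 1 := by
    have : nb j = P := Subtype.ext (by
      simp only [nb]
      rw [← Finsupp.single_add, hPe, show i - 1 + 1 = i by omega])
    simp [ψ, this, hne]
  refine ⟨ψ, hψj, ?_⟩
  suffices key : ∀ d, ∀ α : Expn n i, i - α.1 j = d →
      lam α = lam P * eval ψ (monomial α.1 1) from fun α => key _ α rfl
  intro d
  induction d with
  | zero =>
    intro α hd
    have := (Finsupp.le_degree j α.1).trans_eq α.2
    have hαP : α = P := by
      refine Subtype.ext ?_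
      have h : Finsupp.single j i ≤ α.1 := Finsupp.single_le_iff.2 (by omega)
      have hs : Finsupp.single j i + (α.1 - Finsupp.single j i) = α.1 := add_tsub_cancel_of_le h
      have hd := congrArg Finsupp.degree hs
      rw [map_add, Finsupp.degree_single, α.2] at hd
      rw [← hs, (Finsupp.degree_eq_zero_iff _).1
        (by omega : (α.1 - Finsupp.single j i).degree = 0), add_zero, hPe]
    rw [hαP, hPe, eval_monomial, Finsupp.prod_single_index (by simp), hψj]
    simp
  | succ d ih =>
    intro α hd
    obtain ⟨l, hlj, hl⟩ : ∃ l, l ≠ j ∧ 0 < α.1 l := by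
      by_contra hcon
      push Not at hcon
      have : α.1 = Finsupp.single j (α.1 j) := Finsupp.ext fun l => by
        rcases eq_or_ne l j with rfl | h
        · simp
        · simpa [Finsupp.single_eq_of_ne h] using hcon l h
      have h2 := α.2
      rw [this, Finsupp.degree_single] at h2
      omega
    set w := α.1 - Finsupp.single l 1
    have hw : Finsupp.single l 1 + w = α.1 :=
      add_tsub_cancel_of_le (Finsupp.single_le_iff.2 hl)
    have hwd := congrArg Finsupp.degree hw
    rw [map_add, Finsupp.degree_single, α.2] at hwd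
    let β : Expn n i := ⟨Finsupp.single j 1 + w, by rw [map_add, Finsupp.degree_single]; omega⟩
    have h := hex α P β (nb l) (by
      have h1 : Finsupp.single j i = Finsupp.single j (i - 1) + Finsupp.single j 1 := by
        rw [← Finsupp.single_add, show i - 1 + 1 = i by omega]
      simp only [β, nb]
      rw [hPe, h1, ← hw]
      abel)
    have hβj : β.1 j = α.1 j + 1 := by
      simp [β, w, Finsupp.single_eq_of_ne hlj.symm]
      omega
    have hev : eval ψ (monomial α.1 1) = eval ψ (monomial β.1 1) * ψ l := by
      have hsplit : ∀ (v : Fin n) (e : Fin n →₀ ℕ),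
          eval ψ (monomial (Finsupp.single v 1 + e) (1 : K)) = ψ v * eval ψ (monomial e 1) := by
        intro v e
        rw [monomial_single_add, pow_one, map_mul, eval_X]
      simp only [β, hsplit, hψj, one_mul]
      rw [← hw, hsplit]
      ring
    rw [ih β (by rw [hβj]; omega)] at h
    rw [hev]
    refine mul_right_cancel₀ hne (h.trans ?_)
    simp only [ψ]
    field_simp

end Exchange

/-- Forms of degree `p * i` without common zero give forms of degree `p` on the exponents of
degree `i`, mapped into their ideal and without common zero. -/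
theorem exists_family {p : ℕ} (hp : 2 ≤ p) (hi : 0 < i) {ι : Type*}
    {f : ι → MvPolynomial (Fin n) K} (hf : ∀ l, (f l).IsHomogeneous (p * i))
    (hzero : ∀ c : Fin n → K, (∀ l, eval c (f l) = 0) → c = 0) :
    ∃ (R : ℕ) (F : Fin R → MvPolynomial (Expn n i) K),
      (∀ r, (F r).IsHomogeneous p) ∧ (∀ r, mult K n i (F r) ∈ Ideal.span (Set.range f)) ∧
      ∀ lam : Expn n i → K, (∀ r, eval lam (F r) = 0) → lam = 0 := by
  classical
  let W : Submodule K (MvPolynomial (Expn n i) K) := homogeneousSubmodule (Expn n i) K p ⊓
    ((Ideal.span (Set.range f)).restrictScalars K).comap (mult K n i).toLinearMap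
  have hfin : Module.Finite K (homogeneousSubmodule (Expn n i) K p) := by
    refine Submodule.finiteDimensional_of_le
      (S₂ := MvPolynomial.restrictTotalDegree (Expn n i) K p) fun G hG => ?_
    rw [mem_restrictTotalDegree]
    exact ((mem_homogeneousSubmodule _ _).1 hG).totalDegree_le
  have hWfin : FiniteDimensional K W := Submodule.finiteDimensional_of_le inf_le_left
  obtain ⟨R, F, hspan⟩ := Submodule.fg_iff_exists_fin_generating_family.1
    (Module.Finite.iff_fg.1 hWfin)
  have hFW : ∀ r, F r ∈ W := fun r => hspan ▸ Submodule.subset_span ⟨r, rfl⟩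
  refine ⟨R, F, fun r => (hFW r).1, fun r => (hFW r).2, fun lam hlam => ?_⟩
  have hW : ∀ G : MvPolynomial (Expn n i) K, G.IsHomogeneous p →
      mult K n i G ∈ Ideal.span (Set.range f) → eval lam G = 0 := by
    intro G hG hGf
    have : G ∈ Submodule.span K (Set.range F) := hspan.symm ▸ ⟨hG, hGf⟩
    clear hG hGf
    induction this using Submodule.span_induction with
    | mem G hG => obtain ⟨r, rfl⟩ := hG; exact hlam r
    | zero => exact map_zero _
    | add G H _ _ hG hH => rw [map_add, hG, hH, add_zero]
    | smul t G _ hG => rw [smul_eval, hG, mul_zero]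
  by_contra hne
  obtain ⟨γ, hγ⟩ := Function.ne_iff.1 hne
  have hex : ∀ α β α' β' : Expn n i, α.1 + β.1 = α'.1 + β'.1 →
      lam α * lam β = lam α' * lam β' := by
    intro α β α' β' h
    have h0 := hW ((X α * X β - X α' * X β') * X γ ^ (p - 2))
      (by
        have h2 : (X α * X β - X α' * X β' : MvPolynomial (Expn n i) K).IsHomogeneous 2 :=
          ((isHomogeneous_X K α).mul (isHomogeneous_X K β)).sub
            ((isHomogeneous_X K α').mul (isHomogeneous_X K β'))
        have := h2.mul (isHomogeneous_X_pow γ (p - 2))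
        rwa [Nat.add_sub_cancel' hp] at this)
      (by
        rw [map_mul, map_sub, map_mul, map_mul, mult_X, mult_X, mult_X, mult_X, monomial_mul,
          monomial_mul, h, sub_self, zero_mul]
        exact zero_mem _)
    simp only [map_mul, map_sub, map_pow, eval_X, mul_eq_zero, sub_eq_zero] at h0
    exact h0.resolve_right fun h' => hγ (pow_eq_zero_iff'.1 h').1
  by_cases h0 : ∀ α : Expn n i, ∀ j, α.1 j = i → lam α = 0
  · exact hne (eq_zero_of_exchange hex hi h0)
  push Not at h0
  obtain ⟨P, j, hP, hPne⟩ := h0
  obtain ⟨ψ, hψj, hψ⟩ := eq_veronese_of_exchange hex hi hP hPne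
  have hψ0 : ψ = 0 := hzero ψ fun l => by
    obtain ⟨G, hG, hGm⟩ := exists_lift (hf l)
    have h := hW G hG (hGm ▸ Ideal.subset_span ⟨l, rfl⟩)
    rw [funext hψ, eval_veronese hG, hGm, mul_eq_zero] at h
    exact h.resolve_left (pow_ne_zero _ hPne)
  rw [hψ0] at hψj
  simp at hψj

end Vale.Agent.P200.PPow
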