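import Vale.Agent.P200.PPow.Leading

/-!
The algebra generated by the operators: evaluation at one identifies it with the quotient, so the
ordered products of the generators form a basis over the parameters.
-/

namespace Vale.Agent.P200.PPow

open MvPolynomial Module
open _root_.Vale.Agent.P200.Prime (Par)

set_option linter.unusedSectionVars false

namespace Core

variable {K : Type*} [Field K] {ι : Type} [Fintype ι] [DecidableEq ι] (C : Core K ι)
variable (p : ℕ) [hp : Fact p.Prime] [CharP K p]

/-- Multiplication by a parameter. -/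
noncomputable def parMul : Par K C.q →ₐ[K] Module.End K (C.S0 p) :=
  (Algebra.lmul K (C.S0 p)).comp ((C.qm p).comp (C.parHom p))

lemma parMul_apply (c : Par K C.q) (s : C.S0 p) : C.parMul p c s = c • s := by
  rw [Algebra.smul_def, algebraMap_S0]; rfl

/-- The algebra generated by the operators and the parameters. -/
noncomputable def alg : Subalgebra K (Module.End K (C.S0 p)) :=
  Algebra.adjoin K (Set.range (C.rhoQ (p := p)) ∪ Set.range (C.parMul p))

/-- The algebra as a ring. -/
abbrev R : Type _ := C.alg p

noncomputable instance ringR : Ring (C.R p) := Subalgebra.toRing _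

noncomputable instance algR : Algebra K (C.R p) := Subalgebra.algebra _

lemma rhoQ_mem (x : ι → K) : C.rhoQ (p := p) x ∈ C.alg p :=
  Algebra.subset_adjoin (Or.inl ⟨x, rfl⟩)

lemma parMul_mem (c : Par K C.q) : C.parMul p c ∈ C.alg p :=
  Algebra.subset_adjoin (Or.inr ⟨c, rfl⟩)

lemma parMul_comm (c : Par K C.q) {T : Module.End K (C.S0 p)} (hT : T ∈ C.alg p) :
    Commute (C.parMul p c) T := by
  induction hT using Algebra.adjoin_induction with
  | mem T hT =>
    rcases hT with ⟨x, rfl⟩ | ⟨d, rfl⟩
    · exact LinearMap.ext fun s => by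
        rw [Module.End.mul_apply, Module.End.mul_apply, parMul_apply, parMul_apply, rhoQ_par]
    · exact (Commute.all c d).map (C.parMul p)
  | algebraMap a => exact Algebra.commute_algebraMap_right _ _
  | add _ _ _ _ h h' => exact h.add_right h'
  | mul _ _ _ _ h h' => exact h.mul_right h'

lemma rhoQ'_comm (y : ι → K) {T : Module.End K (C.S0 p)} (hT : T ∈ C.alg p) :
    Commute T (C.rhoQ' y) := by
  induction hT using Algebra.adjoin_induction with
  | mem T hT =>
    rcases hT with ⟨x, rfl⟩ | ⟨d, rfl⟩
    · exact C.rhoQ_comm x y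
    · exact LinearMap.ext fun s => by
        rw [Module.End.mul_apply, Module.End.mul_apply, parMul_apply, parMul_apply, rhoQ'_par]
  | algebraMap a => exact Algebra.commute_algebraMap_left _ _
  | add _ _ _ _ h h' => exact h.add_left h'
  | mul _ _ _ _ h h' => exact h.mul_left h'

noncomputable instance algParR : Algebra (Par K C.q) (C.R p) :=
  ((C.parMul p).codRestrict (C.alg p) (C.parMul_mem p)).toRingHom.toAlgebra'
    fun c T => Subtype.ext (C.parMul_comm p c T.2).eq

lemma algebraMap_R (c : Par K C.q) :
    ((algebraMap (Par K C.q) (C.R p) c : C.R p) : Module.End K (C.S0 p)) = C.parMul p c := rfl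

instance towerR : IsScalarTower K (Par K C.q) (C.R p) :=
  IsScalarTower.of_algebraMap_eq fun a => Subtype.ext (((C.parMul p).commutes a).symm)

/-- A generator. -/
noncomputable def gen (k : Fin C.r) : C.R p :=
  ⟨C.rhoQ (Pi.single (C.gi k) 1), C.rhoQ_mem p _⟩

/-- An ordered product of generators. -/
noncomputable def monR (α : Fin C.r → Fin p) : C.R p :=
  ((List.finRange C.r).map fun k => C.gen p k ^ (α k : ℕ)).prod

lemma monR_coe (α : Fin C.r → Fin p) : (C.monR p α : Module.End K (C.S0 p)) =
    C.word (fun k => C.rhoQ (Pi.single (C.gi k) 1)) α := by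
  rw [monR, word, show ((((List.finRange C.r).map fun k => C.gen p k ^ (α k : ℕ)).prod : C.R p) :
      Module.End K (C.S0 p)) = (C.alg p).val _ from rfl, map_list_prod, List.map_map]
  rfl

/-- Evaluation at one. -/
noncomputable def ev : C.R p →ₗ[Par K C.q] C.S0 p where
  toFun T := (T : Module.End K (C.S0 p)) 1
  map_add' _ _ := rfl
  map_smul' c T := by
    rw [Algebra.smul_def, RingHom.id_apply]
    exact C.parMul_apply p c _

lemma ev_apply (T : C.R p) : C.ev p T = (T : Module.End K (C.S0 p)) 1 := rfl

lemma der_X_homogeneous (x : ι → K) (i : ι) :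
    IsWeightedHomogeneous (1 : ι → ℕ) (C.der x (X i)) 1 := by
  rw [der_X]; exact isHomogeneous_lin _

lemma ev_monR_basis :
    LinearIndependent (Par K C.q) (fun α => C.ev p (C.monR p α)) ∧
      Submodule.span (Par K C.q) (Set.range fun α => C.ev p (C.monR p α)) = ⊤ := by
  simp only [ev_apply, monR_coe]
  exact C.word_basis (fun k => C.der (Pi.single (C.gi k) 1)) fun k i => C.der_X_homogeneous _ i

lemma ev_injective : Function.Injective (C.ev p) := by
  refine (injective_iff_map_eq_zero _).2 fun T hT => Subtype.ext (LinearMap.ext fun s => ?_)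
  obtain ⟨-, htop⟩ := C.word_basis (p := p) (fun k => C.der' (Pi.single (C.gi k) 1))
    fun k i => by rw [der'_X]; exact isHomogeneous_lin _
  have hs := htop.ge (Submodule.mem_top (x := s))
  induction hs using Submodule.span_induction with
  | mem s hs =>
    obtain ⟨α, rfl⟩ := hs
    have hc : Commute (T : Module.End K (C.S0 p))
        (C.word (fun k => C.rhoQ' (Pi.single (C.gi k) 1)) α) := by
      refine Commute.list_prod_right _ _ fun U hU => ?_
      obtain ⟨k, -, rfl⟩ := List.mem_map.1 hU
      exact (C.rhoQ'_comm p _ T.2).pow_right _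
    show (T : Module.End K (C.S0 p)) (C.word (fun k => C.rhoQ' (Pi.single (C.gi k) 1)) α 1) = 0
    rw [← Module.End.mul_apply, hc.eq, Module.End.mul_apply, ← ev_apply, hT, map_zero]
  | zero => simp
  | add a b _ _ ha hb => rw [map_add, map_add, ha, hb]
  | smul c a _ ha =>
    have h1 : (T : Module.End K (C.S0 p)) (c • a) = c • (T : Module.End K (C.S0 p)) a := by
      rw [← parMul_apply, ← Module.End.mul_apply, ← (C.parMul_comm p c T.2).eq,
        Module.End.mul_apply, parMul_apply]
    rw [h1, ha]
    simp

lemma ev_surjective : Function.Surjective (C.ev p) := by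
  intro s
  have hs := (C.ev_monR_basis p).2.ge (Submodule.mem_top (x := s))
  induction hs using Submodule.span_induction with
  | mem s hs => obtain ⟨α, rfl⟩ := hs; exact ⟨_, rfl⟩
  | zero => exact ⟨0, map_zero _⟩
  | add a b _ _ ha hb =>
    obtain ⟨A, rfl⟩ := ha
    obtain ⟨B, rfl⟩ := hb
    exact ⟨A + B, map_add _ _ _⟩
  | smul c a _ ha =>
    obtain ⟨A, rfl⟩ := ha
    exact ⟨c • A, map_smul _ _ _⟩

/-- The algebra is the quotient. -/
noncomputable def evEquiv : C.R p ≃ₗ[Par K C.q] C.S0 p :=
  LinearEquiv.ofBijective (C.ev p) ⟨C.ev_injective p, C.ev_surjective p⟩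

/-- The ordered products form a basis. -/
noncomputable def monBasis : Basis (Fin C.r → Fin p) (Par K C.q) (C.R p) :=
  (Basis.mk (C.ev_monR_basis p).1 (C.ev_monR_basis p).2.ge).map (C.evEquiv p).symm

lemma monBasis_apply (α : Fin C.r → Fin p) : C.monBasis p α = C.monR p α := by
  rw [monBasis, Basis.map_apply, Basis.mk_apply, LinearEquiv.symm_apply_eq]
  rfl

lemma monR_indep : LinearIndependent (Par K C.q) (C.monR p) := by
  have h := (C.monBasis p).linearIndependent
  rwa [show ⇑(C.monBasis p) = C.monR p from funext (C.monBasis_apply p)] at h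

lemma monR_spans : Submodule.span (Par K C.q) (Set.range (C.monR p)) = ⊤ := by
  rw [← (C.monBasis p).span_eq, show ⇑(C.monBasis p) = C.monR p from funext (C.monBasis_apply p)]

end Core

end Vale.Agent.P200.PPow
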