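import Vale.Agent.P200.PPow.Spec

/-!
The truncated tensor algebra: orthogonal copies of the words of length below `p ^ (k + 1)`, the
products reaching that length being read through the forms. The coordinates of length `p ^ k` are
changed so that the symmetric tensors are spanned by the representative words.
-/

namespace Vale.Agent.P200.PPow.Words

open MvPolynomial

/-- Words of length between `1` and `p ^ (k + 1) - 1`. -/
abbrev Wd (p k n : ℕ) : Type :=
  {l : List (Fin n) // 0 < l.length ∧ l.length < p ^ (k + 1)}

instance {p k n : ℕ} : Finite (Wd p k n) :=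
  ((List.finite_length_le (Fin n) (p ^ (k + 1))).subset
    (s := {l : List (Fin n) | l.length ≤ p ^ (k + 1)}) fun _ h => h.2.le).to_subtype

noncomputable instance {p k n : ℕ} : Fintype (Wd p k n) := Fintype.ofFinite _

/-- The coordinates: words and central coordinates, in every copy. -/
abbrev Idx (p k n : ℕ) (L : Type) : Type := Fin n × (Wd p k n ⊕ L)

variable {K : Type*} [Field K] {p k n : ℕ} {L : Type}

/-- The representative word of an exponent. -/
noncomputable def repW (α : Fin n →₀ ℕ) : List (Fin n) := (Finsupp.toMultiset α).toList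

lemma length_repW (α : Fin n →₀ ℕ) : (repW α).length = α.degree := by
  rw [repW, Multiset.length_toList, Finsupp.card_toMultiset, Finsupp.degree_apply]
  rfl

lemma prod_map_toMultiset {A : Type*} (g : A → K) (γ : A →₀ ℕ) :
    ((Finsupp.toMultiset γ).map g).prod = γ.prod fun a m => g a ^ m := by
  classical
  rw [Finsupp.toMultiset_map, Finsupp.prod_toMultiset, Finsupp.prod_mapDomain_index
    (fun _ => pow_zero _) fun _ _ _ => pow_add _ _ _]

/-- The value of a word at a point. -/
def wval (c : Fin n → K) (l : List (Fin n)) : K := (l.map c).prod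

lemma wval_append (c : Fin n → K) (l l' : List (Fin n)) :
    wval c (l ++ l') = wval c l * wval c l' := by
  simp [wval]

lemma wval_repW (c : Fin n → K) (α : Fin n →₀ ℕ) :
    wval c (repW α) = eval c (monomial α (1 : K)) := by
  rw [eval_monomial, one_mul, wval, repW]
  conv_lhs => rw [← Multiset.prod_coe, ← Multiset.map_coe, Multiset.coe_toList]
  rw [prod_map_toMultiset]

/-- The exponent of a word. -/
noncomputable def content (l : List (Fin n)) : Fin n →₀ ℕ := Multiset.toFinsupp (l : Multiset (Fin n))

lemma degree_content (l : List (Fin n)) : (content l).degree = l.length := by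
  rw [← length_repW, repW, content, Multiset.toFinsupp_toMultiset, Multiset.length_toList,
    Multiset.coe_card]

lemma content_repW (α : Fin n →₀ ℕ) : content (repW α) = α := by
  rw [content, repW, Multiset.coe_toList, Finsupp.toMultiset_toFinsupp]

lemma wval_repW_content (c : Fin n → K) (l : List (Fin n)) :
    wval c (repW (content l)) = wval c l := by
  refine List.Perm.prod_eq (List.Perm.map c ?_)
  rw [← Multiset.coe_eq_coe, repW, Multiset.coe_toList, content, Multiset.toFinsupp_toMultiset]

/-- The word of a monomial in the exponents. -/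
noncomputable def bigW (γ : Expn n (p ^ k) →₀ ℕ) : List (Fin n) :=
  ((Finsupp.toMultiset γ).toList.map fun α => repW α.1).flatten

lemma length_bigW (γ : Expn n (p ^ k) →₀ ℕ) : (bigW γ).length = γ.degree * p ^ k := by
  rw [bigW, List.length_flatten, List.map_map, List.map_congr_left
    (g := fun _ => p ^ k) fun α _ => by simp [length_repW, α.2]]
  rw [List.map_const', List.sum_replicate, smul_eq_mul, Multiset.length_toList,
    Finsupp.card_toMultiset, Finsupp.degree_apply]
  rfl

variable (F : L → MvPolynomial (Expn n (p ^ k)) K)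

/-- The reading of a word through a form. -/
noncomputable def pi (r : L) (l : List (Fin n)) : K :=
  ∑ γ ∈ (F r).support, if bigW γ = l then coeff γ (F r) else 0

variable {F} (hF : ∀ r, (F r).IsHomogeneous p)

include hF in
lemma length_bigW_support {r : L} {γ : Expn n (p ^ k) →₀ ℕ} (hγ : γ ∈ (F r).support) :
    (bigW γ).length = p ^ (k + 1) := by
  rw [length_bigW, pow_succ']
  congr 1
  have := hF r (mem_support_iff.1 hγ)
  rw [Finsupp.degree_eq_weight_one]
  exact this

include hF in
lemma pi_eq_zero {r : L} {l : List (Fin n)} (h : l.length ≠ p ^ (k + 1)) : pi F r l = 0 :=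
  Finset.sum_eq_zero fun _ hγ => if_neg fun e => h (by rw [← e, length_bigW_support hF hγ])

variable (F)

/-- The element of a word in a copy. -/
noncomputable def ofList (b : Fin n) (l : List (Fin n)) : Idx p k n L → K := fun i =>
  if i.1 = b then Sum.elim (fun w => if w.1 = l then 1 else 0) (fun r => pi F r l) i.2 else 0

variable {F}

lemma ofList_inl (b b' : Fin n) (l : List (Fin n)) (w : Wd p k n) :
    ofList F b l (b', Sum.inl w) = if b' = b ∧ w.1 = l then 1 else 0 := by
  by_cases h : b' = b <;> simp [ofList, h]

lemma ofList_inr (b b' : Fin n) (l : List (Fin n)) (r : L) :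
    ofList F b l (b', Sum.inr r) = if b' = b then pi F r l else 0 := by
  simp [ofList]

variable [Fintype L] [DecidableEq L]

set_option linter.unusedSectionVars false

include hF in
lemma ofList_word (b : Fin n) (w : Wd p k n) :
    ofList F b w.1 = Pi.single (b, Sum.inl w) 1 := by
  funext ⟨b', i⟩
  rcases i with w' | r
  · rw [ofList_inl, Pi.single_apply]
    simp [Subtype.ext_iff]
  · rw [ofList_inr, pi_eq_zero hF w.2.2.ne, Pi.single_eq_of_ne (by simp)]
    simp

include hF in
omit [Fintype L] [DecidableEq L] in
lemma ofList_eq_zero (b : Fin n) {l : List (Fin n)} (h : p ^ (k + 1) < l.length) :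
    ofList F b l = 0 := by
  funext ⟨b', i⟩
  rcases i with w | r
  · rw [ofList_inl, if_neg, Pi.zero_apply]
    rintro ⟨-, e⟩
    have := w.2.2
    rw [e] at this
    omega
  · rw [ofList_inr, pi_eq_zero hF h.ne']
    simp

variable (F)

/-- The product of two coordinates. -/
noncomputable def mB : Idx p k n L → Idx p k n L → Idx p k n L → K
  | (b, Sum.inl w), (b', Sum.inl w') => if b = b' then ofList F b (w.1 ++ w'.1) else 0
  | (_, _), (_, _) => 0

/-- The product. -/
noncomputable def mul : (Idx p k n L → K) →ₗ[K] (Idx p k n L → K) →ₗ[K] (Idx p k n L → K) :=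
  LinearMap.mk₂ K (fun x y => ∑ a, ∑ c, (x a * y c) • mB F a c)
    (fun x x' y => by simp [add_mul, add_smul, Finset.sum_add_distrib])
    (fun t x y => by simp [mul_assoc, Finset.smul_sum, smul_smul])
    (fun x y y' => by simp [mul_add, add_smul, Finset.sum_add_distrib])
    (fun t x y => by simp [mul_left_comm, Finset.smul_sum, smul_smul])

variable {F}

lemma mul_apply (x y : Idx p k n L → K) : mul F x y = ∑ a, ∑ c, (x a * y c) • mB F a c := rfl

lemma mul_single (a c : Idx p k n L) : mul F (Pi.single a 1) (Pi.single c 1) = mB F a c := by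
  rw [mul_apply, Finset.sum_eq_single a, Finset.sum_eq_single c]
  · simp
  · intro c' _ h; simp [h]
  · simp
  · intro a' _ h; simp [h]
  · simp

lemma mul_par_left (b : Fin n) (r : L) (x : Idx p k n L → K) :
    mul F (Pi.single (b, Sum.inr r) 1) x = 0 := by
  rw [mul_apply]
  refine Finset.sum_eq_zero fun a _ => Finset.sum_eq_zero fun c _ => ?_
  by_cases h : a = (b, Sum.inr r)
  · subst h; simp [mB]
  · simp [h]

lemma mul_par_right (b : Fin n) (r : L) (x : Idx p k n L → K) :
    mul F x (Pi.single (b, Sum.inr r) 1) = 0 := by
  rw [mul_apply]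
  refine Finset.sum_eq_zero fun a _ => Finset.sum_eq_zero fun c _ => ?_
  by_cases h : c = (b, Sum.inr r)
  · subst h; obtain ⟨b', w | r'⟩ := a <;> simp [mB]
  · simp [h]

include hF in
lemma ofList_long (b : Fin n) {l : List (Fin n)} (h : p ^ (k + 1) ≤ l.length) :
    ofList F b l = ∑ r : L, pi F r l • Pi.single (b, Sum.inr r) 1 := by
  funext ⟨b', i⟩
  rw [Finset.sum_apply]
  simp only [Pi.smul_apply, Pi.single_apply, smul_eq_mul, mul_ite, mul_one, mul_zero]
  rcases i with w | r
  · rw [ofList_inl, if_neg, Finset.sum_eq_zero fun r _ => if_neg (by simp)]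
    rintro ⟨-, e⟩
    have := w.2.2
    rw [e] at this
    omega
  · rw [ofList_inr]
    by_cases hb : b' = b <;> simp [hb]

include hF in
/-- Words multiply by concatenation. -/
lemma mul_ofList (b b' : Fin n) {l l' : List (Fin n)} (hl : 0 < l.length) (hl' : 0 < l'.length) :
    mul F (ofList F b l) (ofList F b' l') = if b = b' then ofList F b (l ++ l') else 0 := by
  have hlong : p ^ (k + 1) ≤ l.length ∨ p ^ (k + 1) ≤ l'.length →
      (if b = b' then ofList F b (l ++ l') else 0) = 0 := fun h => by
    rw [ofList_eq_zero hF b (by rw [List.length_append]; omega)]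
    simp
  rcases Nat.lt_or_ge l.length (p ^ (k + 1)) with h | h
  · rcases Nat.lt_or_ge l'.length (p ^ (k + 1)) with h' | h'
    · rw [show ofList F b l = Pi.single (b, Sum.inl ⟨l, hl, h⟩) 1 from
          ofList_word hF b ⟨l, hl, h⟩,
        show ofList F b' l' = Pi.single (b', Sum.inl ⟨l', hl', h'⟩) 1 from
          ofList_word hF b' ⟨l', hl', h'⟩, mul_single]
      rfl
    · rw [hlong (Or.inr h'), ofList_long hF b' h', map_sum]
      exact Finset.sum_eq_zero fun r _ => by rw [map_smul, mul_par_right, smul_zero]
  · rw [hlong (Or.inl h), ofList_long hF b h, map_sum, LinearMap.sum_apply]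
    exact Finset.sum_eq_zero fun r _ => by
      rw [map_smul, LinearMap.smul_apply, mul_par_left, smul_zero]

include hF in
/-- The product is associative. -/
theorem mul_assoc' (x y z : Idx p k n L → K) : mul F (mul F x y) z = mul F x (mul F y z) := by
  have h3 : ∀ a c e : Idx p k n L,
      mul F (mul F (Pi.single a (1 : K)) (Pi.single c 1)) (Pi.single e 1) =
        mul F (Pi.single a 1) (mul F (Pi.single c 1) (Pi.single e 1)) := by
    intro a c e
    obtain ⟨b, w | r⟩ := a
    · obtain ⟨b', w' | r'⟩ := c
      · obtain ⟨b'', w'' | r''⟩ := e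
        · simp only [← ofList_word hF]
          rw [mul_ofList hF b b' w.2.1 w'.2.1, mul_ofList hF b' b'' w'.2.1 w''.2.1]
          by_cases h : b = b'
          · subst h
            rw [if_pos rfl, mul_ofList hF b b'' (by simp; have := w.2.1; omega) w''.2.1]
            by_cases h' : b = b''
            · subst h'
              rw [if_pos rfl, if_pos rfl, mul_ofList hF b b w.2.1 (by simp; have := w'.2.1; omega),
                if_pos rfl, List.append_assoc]
            · rw [if_neg h', if_neg h', map_zero]
          · rw [if_neg h, map_zero, LinearMap.zero_apply]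
            split_ifs
            · rw [mul_ofList hF b b' w.2.1 (by simp; have := w'.2.1; omega), if_neg h]
            · rw [map_zero]
        · rw [mul_par_right, mul_par_right, map_zero]
      · rw [mul_par_right, mul_par_left, map_zero, map_zero, LinearMap.zero_apply]
    · rw [mul_par_left, mul_par_left, map_zero, LinearMap.zero_apply]
  have h2 : ∀ (a c : Idx p k n L) (z : Idx p k n L → K),
      mul F (mul F (Pi.single a (1 : K)) (Pi.single c 1)) z =
        mul F (Pi.single a 1) (mul F (Pi.single c 1) z) := fun a c z => by
    rw [pi_eq_sum_univ' z]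
    simp only [map_sum, map_smul, h3]
  have h1 : ∀ (a : Idx p k n L) (y z : Idx p k n L → K),
      mul F (mul F (Pi.single a (1 : K)) y) z = mul F (Pi.single a 1) (mul F y z) := fun a y z => by
    rw [pi_eq_sum_univ' y]
    simp only [map_sum, map_smul, LinearMap.sum_apply, LinearMap.smul_apply, h2]
  rw [pi_eq_sum_univ' x]
  simp only [map_sum, map_smul, LinearMap.sum_apply, LinearMap.smul_apply, h1]

/-- The coordinate of a word, zero for lengths out of range. -/
noncomputable def cf (b : Fin n) (x : Idx p k n L → K) (l : List (Fin n)) : K :=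
  ∑ w : Wd p k n, if w.1 = l then x (b, Sum.inl w) else 0

lemma cf_word (b : Fin n) (x : Idx p k n L → K) (w : Wd p k n) :
    cf b x w.1 = x (b, Sum.inl w) := by
  rw [cf, Finset.sum_eq_single w (fun w' _ h => if_neg fun e => h (Subtype.ext e)) (by simp),
    if_pos rfl]

lemma sum_split (b : Fin n) (x y : Idx p k n L → K) {j j' : ℕ}
    (hx : ∀ l, l.length < j → cf b x l = 0) (hy : ∀ l, l.length < j' → cf b y l = 0)
    {l : List (Fin n)} (hl : l.length ≤ j + j') :
    (∑ w : Wd p k n, ∑ w' : Wd p k n,
      if w.1 ++ w'.1 = l then x (b, Sum.inl w) * y (b, Sum.inl w') else 0) =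
      if l.length = j + j' then cf b x (l.take j) * cf b y (l.drop j) else 0 := by
  have key : ∀ w w' : Wd p k n, w.1 ++ w'.1 = l → x (b, Sum.inl w) * y (b, Sum.inl w') ≠ 0 →
      l.length = j + j' ∧ w.1 = l.take j ∧ w'.1 = l.drop j := by
    intro w w' e hne
    have h1 : j ≤ w.1.length := by
      by_contra h
      exact hne (by rw [← cf_word b x w, hx _ (by omega), zero_mul])
    have h2 : j' ≤ w'.1.length := by
      by_contra h
      rw [mul_comm] at hne
      exact hne (by rw [← cf_word b y w', hy _ (by omega), zero_mul])
    have hlen : w.1.length + w'.1.length = l.length := by rw [← e, List.length_append]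
    refine ⟨by omega, ?_, ?_⟩ <;> rw [← e]
    · exact (List.take_left' (by omega)).symm
    · exact (List.drop_left' (by omega)).symm
  split_ifs with hlen
  · rw [cf, cf, Finset.sum_mul_sum]
    refine Finset.sum_congr rfl fun w _ => Finset.sum_congr rfl fun w' _ => ?_
    by_cases h : w.1 = l.take j ∧ w'.1 = l.drop j
    · rw [if_pos h.1, if_pos h.2, if_pos (by rw [h.1, h.2, List.take_append_drop])]
    · have h0 : (if w.1 ++ w'.1 = l then x (b, Sum.inl w) * y (b, Sum.inl w') else 0) = 0 := by
        by_contra hne
        rw [ite_eq_right_iff] at hne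
        push Not at hne
        exact h (key w w' hne.1 hne.2).2
      rw [h0]
      rcases not_and_or.1 h with h | h
      · rw [if_neg h, zero_mul]
      · rw [if_neg h, mul_zero]
  · refine Finset.sum_eq_zero fun w _ => Finset.sum_eq_zero fun w' _ => ?_
    by_contra hne
    rw [ite_eq_right_iff] at hne
    push Not at hne
    exact hlen (key w w' hne.1 hne.2).1

lemma mul_coord (x y : Idx p k n L → K) (b : Fin n) (i : Wd p k n ⊕ L) :
    mul F x y (b, i) = ∑ w : Wd p k n, ∑ w' : Wd p k n,
      (x (b, Sum.inl w) * y (b, Sum.inl w')) * ofList F b (w.1 ++ w'.1) (b, i) := by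
  rw [mul_apply]
  simp only [Fintype.sum_prod_type, Fintype.sum_sum_type, mB, smul_zero, Finset.sum_const_zero,
    add_zero]
  simp only [Finset.sum_apply, Pi.smul_apply, smul_eq_mul]
  rw [Finset.sum_eq_single b]
  · refine Finset.sum_congr rfl fun w _ => ?_
    rw [Finset.sum_eq_single b (fun b' _ h => ?_) (by simp)]
    · simp
    · simp [Ne.symm h]
  · intro b' _ h
    refine Finset.sum_eq_zero fun w _ => Finset.sum_eq_zero fun b'' _ =>
      Finset.sum_eq_zero fun w' _ => ?_
    by_cases hb : b' = b''
    · subst hb
      simp [ofList, Ne.symm h]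
    · simp [hb]
  · simp

/-- Low word coordinates of a product. -/
lemma cf_mul (b : Fin n) (x y : Idx p k n L → K) {j j' : ℕ}
    (hx : ∀ l, l.length < j → cf b x l = 0) (hy : ∀ l, l.length < j' → cf b y l = 0)
    {l : List (Fin n)} (hl : l.length ≤ j + j') (hlQ : l.length < p ^ (k + 1)) :
    cf b (mul F x y) l = if l.length = j + j' then cf b x (l.take j) * cf b y (l.drop j) else 0 := by
  rcases Nat.eq_zero_or_pos l.length with h0 | h0
  · rw [cf, Finset.sum_eq_zero fun w _ => if_neg fun e => by
      have := w.2.1; rw [e] at this; omega]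
    split_ifs with h
    · rw [cf, Finset.sum_eq_zero fun w _ => if_neg fun e => by
        have := w.2.1; rw [e, List.length_take] at this; omega, zero_mul]
    · rfl
  · rw [← sum_split b x y hx hy hl, show cf b (mul F x y) l = mul F x y (b, Sum.inl ⟨l, h0, hlQ⟩)
      from cf_word b _ ⟨l, h0, hlQ⟩, mul_coord]
    refine Finset.sum_congr rfl fun w _ => Finset.sum_congr rfl fun w' _ => ?_
    simp [ofList_inl, eq_comm]

include hF in
/-- The central coordinates of a product in top degree. -/
lemma top_mul (b : Fin n) (x y : Idx p k n L → K) {j j' : ℕ}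
    (hx : ∀ l, l.length < j → cf b x l = 0) (hy : ∀ l, l.length < j' → cf b y l = 0)
    (hjj : j + j' = p ^ (k + 1)) (r : L) :
    mul F x y (b, Sum.inr r) = ∑ γ ∈ (F r).support,
      coeff γ (F r) * (cf b x ((bigW γ).take j) * cf b y ((bigW γ).drop j)) := by
  have h : ∀ γ ∈ (F r).support, cf b x ((bigW γ).take j) * cf b y ((bigW γ).drop j) =
      ∑ w : Wd p k n, ∑ w' : Wd p k n,
        if w.1 ++ w'.1 = bigW γ then x (b, Sum.inl w) * y (b, Sum.inl w') else 0 := fun γ hγ => by
    have := length_bigW_support hF hγ
    rw [sum_split b x y hx hy (by omega), if_pos (by omega)]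
  rw [mul_coord]
  refine Eq.trans ?_ (Finset.sum_congr rfl fun γ hγ =>
    (congrArg (coeff γ (F r) * ·) (h γ hγ)).symm)
  simp only [ofList_inr, if_true, pi, Finset.mul_sum]
  rw [Finset.sum_comm_cycle]
  refine Finset.sum_congr rfl fun γ _ => Finset.sum_congr rfl fun w _ =>
    Finset.sum_congr rfl fun w' _ => ?_
  by_cases h : bigW γ = w.1 ++ w'.1
  · rw [if_pos h, if_pos h.symm, mul_comm]
  · rw [if_neg h, if_neg (Ne.symm h)]; simp

variable (F)

/-- Powers: `powW F t x` is `x ^ (t + 1)`. -/
noncomputable def powW (t : ℕ) (x : Idx p k n L → K) : Idx p k n L → K := (mul F x ^ t) x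

variable {F}

lemma powW_zero (x : Idx p k n L → K) : powW F 0 x = x := rfl

lemma powW_succ (t : ℕ) (x : Idx p k n L → K) : powW F (t + 1) x = mul F x (powW F t x) := by
  rw [powW, pow_succ', Module.End.mul_apply]
  rfl

/-- Low word coordinates of powers. -/
lemma cf_powW (b : Fin n) (x : Idx p k n L → K) {j : ℕ}
    (hx : ∀ l, l.length < j → cf b x l = 0) :
    ∀ t, (t + 1) * j ≤ p ^ (k + 1) →
      (∀ l, l.length < (t + 1) * j → cf b (powW F t x) l = 0) ∧
      ((t + 1) * j < p ^ (k + 1) → ∀ ws : List (List (Fin n)), (∀ w ∈ ws, w.length = j) →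
        ws.length = t + 1 → cf b (powW F t x) ws.flatten = (ws.map (cf b x)).prod) := by
  intro t
  induction t with
  | zero =>
    intro _
    refine ⟨fun l hl => hx l (by simpa using hl), fun _ ws _ hlen => ?_⟩
    obtain ⟨w, rfl⟩ := List.length_eq_one_iff.1 hlen
    simp [powW_zero]
  | succ t ih =>
    intro hQ
    rw [Nat.succ_mul] at hQ
    obtain ⟨ih0, ih1⟩ := ih (by omega)
    refine ⟨fun l hl => ?_, fun hlt ws hws hlen => ?_⟩
    · rw [Nat.succ_mul] at hl
      rw [powW_succ, cf_mul b x _ hx ih0 (by omega) (by omega), if_neg (by omega)]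
    · obtain ⟨w, ws, rfl⟩ : ∃ w ws', ws = w :: ws' :=
        List.exists_cons_of_length_eq_add_one hlen
      rw [Nat.succ_mul] at hlt
      have hlf : ws.flatten.length = (t + 1) * j := by
        rw [List.length_flatten, List.map_congr_left (g := fun _ => j)
          fun v hv => hws v (List.mem_cons_of_mem _ hv), List.map_const', List.sum_replicate,
          smul_eq_mul]
        simp only [List.length_cons] at hlen
        rw [show ws.length = t + 1 by omega]
      have hw := hws w (List.mem_cons_self ..)
      rw [powW_succ, List.flatten_cons, cf_mul b x _ hx ih0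
        (by rw [List.length_append]; omega) (by rw [List.length_append]; omega),
        if_pos (by rw [List.length_append]; omega), List.take_left' hw, List.drop_left' hw,
        ih1 (by omega) ws (fun v hv => hws v (List.mem_cons_of_mem _ hv))
          (by simp only [List.length_cons] at hlen; omega)]
      simp

include hF in
/-- The top coordinates of the `p`-th power of an element starting in degree `p ^ k`. -/
lemma top_powW (hp : 2 ≤ p) (b : Fin n) (x : Idx p k n L → K)
    (hx : ∀ l, l.length < p ^ k → cf b x l = 0) (r : L) :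
    powW F (p - 1) x (b, Sum.inr r) =
      eval (fun α : Expn n (p ^ k) => cf b x (repW α.1)) (F r) := by
  obtain ⟨t, ht⟩ : ∃ t, p - 1 = t + 1 := ⟨p - 2, by omega⟩
  have hQ : (t + 1 + 1) * p ^ k = p ^ (k + 1) := by rw [pow_succ']; congr 1; omega
  have hpos : 0 < p ^ k := pow_pos (by omega) k
  have hlt : (t + 1) * p ^ k < p ^ (k + 1) := by rw [← hQ, Nat.succ_mul (t + 1)]; omega
  obtain ⟨h0, h1⟩ := cf_powW (F := F) b x hx t hlt.le
  rw [ht, powW_succ, top_mul hF b x _ hx h0 (by rw [← hQ]; ring) r, eval_eq]
  refine Finset.sum_congr rfl fun γ hγ => ?_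
  congr 1
  have hdeg : γ.degree = p := by
    have := hF r (mem_support_iff.1 hγ)
    rw [Finsupp.degree_eq_weight_one]
    exact this
  have hcard : (Finsupp.toMultiset γ).toList.length = t + 1 + 1 := by
    rw [Multiset.length_toList, Finsupp.card_toMultiset]
    rw [Finsupp.degree_apply] at hdeg
    show (γ.sum fun _ => id) = _
    rw [Finsupp.sum]
    simp only [id_eq, hdeg]
    omega
  obtain ⟨α, rest, hαr⟩ := List.exists_cons_of_length_eq_add_one hcard
  have hw : (repW α.1).length = p ^ k := by rw [length_repW, α.2]
  rw [bigW, hαr, List.map_cons, List.flatten_cons, List.take_left' hw, List.drop_left' hw,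
    h1 hlt _ (fun w hw => by
      obtain ⟨β, -, rfl⟩ := List.mem_map.1 hw
      rw [length_repW, β.2]) (by rw [hαr] at hcard; simpa using hcard)]
  have hprod : ((Finsupp.toMultiset γ).toList.map fun β => cf b x (repW β.1)).prod =
      ∏ β ∈ γ.support, cf b x (repW β.1) ^ γ β := by
    conv_lhs => rw [← Multiset.prod_coe, ← Multiset.map_coe, Multiset.coe_toList]
    rw [prod_map_toMultiset]
    rfl
  rw [← hprod, hαr]
  simp [List.map_map, Function.comp_def]

variable (F)

/-- The tensor power of a point in a copy. -/
noncomputable def tens (b : Fin n) (c : Fin n → K) (a : ℕ) : Idx p k n L → K :=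
  ∑ f : Fin a → Fin n, (∏ i, c (f i)) • ofList F b (List.ofFn f)

variable {F}

include hF in
lemma mul_tens (b : Fin n) (c : Fin n → K) {a a' : ℕ} (ha : 0 < a) (ha' : 0 < a') :
    mul F (tens F b c a) (tens F b c a') = tens F b c (a + a') := by
  simp only [tens, map_sum, map_smul, LinearMap.sum_apply, LinearMap.smul_apply, Finset.smul_sum]
  rw [Finset.sum_comm, ← Fintype.sum_prod_type', ← (Fin.appendEquiv a a').sum_comp]
  refine Finset.sum_congr rfl fun q _ => ?_
  rw [mul_ofList hF b b (by simpa using ha) (by simpa using ha'), if_pos rfl, smul_smul,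
    Fin.prod_univ_add]
  simp [Fin.appendEquiv, List.ofFn_fin_append, mul_comm]

include hF in
lemma powW_tens (b : Fin n) (c : Fin n → K) {a : ℕ} (ha : 0 < a) :
    ∀ t, powW F t (tens F b c a) = tens F b c ((t + 1) * a) := by
  intro t
  induction t with
  | zero => rw [powW_zero, Nat.zero_add, Nat.one_mul]
  | succ t ih =>
    rw [powW_succ, ih, mul_tens hF b c ha (Nat.mul_pos (Nat.succ_pos t) ha)]
    congr 1
    simp only [Nat.succ_eq_add_one]
    ring

lemma tens_inl (b b' : Fin n) (c : Fin n → K) (a : ℕ) (w : Wd p k n) :
    tens F b c a (b', Sum.inl w) = if b' = b ∧ w.1.length = a then wval c w.1 else 0 := by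
  simp only [tens, Finset.sum_apply, Pi.smul_apply, ofList_inl, smul_eq_mul, mul_ite, mul_one,
    mul_zero]
  split_ifs with h
  · obtain ⟨rfl, rfl⟩ := h
    rw [Finset.sum_eq_single fun i => w.1.get i, if_pos ⟨rfl, (List.ofFn_get _).symm⟩]
    · rw [wval, ← List.prod_ofFn]
      congr 1
      conv_rhs => rw [← List.ofFn_get w.1, List.map_ofFn]
      rfl
    · intro f _ hne
      refine if_neg fun e => hne (List.ofFn_injective ?_)
      rw [List.ofFn_get]
      exact e.2.symm
    · simp
  · exact Finset.sum_eq_zero fun f _ => if_neg fun e => h ⟨e.1, by rw [e.2, List.length_ofFn]⟩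

include hF in
lemma tens_inr (b b' : Fin n) (c : Fin n → K) (r : L) :
    tens F b c (p ^ (k + 1)) (b', Sum.inr r) =
      if b' = b then eval c (mult K n (p ^ k) (F r)) else 0 := by
  simp only [tens, Finset.sum_apply, Pi.smul_apply, ofList_inr, smul_eq_mul]
  split_ifs with hb
  swap
  · simp
  simp only [pi, Finset.mul_sum]
  rw [Finset.sum_comm]
  conv_rhs => rw [(F r).as_sum, map_sum, map_sum]
  refine Finset.sum_congr rfl fun γ hγ => ?_
  simp only [mul_ite, mul_zero]
  have hlen := length_bigW_support hF hγ
  let f₀ : Fin (p ^ (k + 1)) → Fin n := fun i => (bigW γ).get (Fin.cast hlen.symm i)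
  have hf₀ : List.ofFn f₀ = bigW γ := by
    conv_rhs => rw [← List.ofFn_get (bigW γ), List.ofFn_congr hlen]
  rw [Finset.sum_eq_single f₀, if_pos hf₀.symm]
  rotate_left
  · intro f _ hne
    exact if_neg fun e => hne (List.ofFn_injective (by rw [← e, hf₀]))
  · simp
  · have hv : ∏ i, c (f₀ i) = wval c (bigW γ) := by
      rw [← hf₀, wval, List.map_ofFn, List.prod_ofFn]; rfl
    rw [hv, mul_comm, mult, aeval_monomial, map_mul, MvPolynomial.algebraMap_eq, eval_C]
    congr 1
    rw [Finsupp.prod, map_prod, bigW, wval, List.map_flatten, List.map_map, List.prod_flatten,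
      List.map_map]
    conv_lhs => rw [← Multiset.prod_coe, ← Multiset.map_coe, Multiset.coe_toList]
    rw [prod_map_toMultiset]
    refine Finset.prod_congr rfl fun α _ => ?_
    rw [map_pow, ← wval_repW]
    rfl

/-- The copy and degree of a coordinate. -/
def key : Idx p k n L → Fin n × ℕ
  | (b, Sum.inl w) => (b, w.1.length)
  | (b, Sum.inr _) => (b, p ^ (k + 1))

/-- A nonrepresentative word of length `p ^ k` refers to its representative. -/
noncomputable def shift : Idx p k n L → Option (Idx p k n L)
  | (b, Sum.inl w) =>
    if h : w.1.length = p ^ k ∧ repW (content w.1) ≠ w.1 then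
      some (b, Sum.inl ⟨repW (content w.1), by
        rw [length_repW, degree_content]; exact w.2⟩)
    else none
  | (_, Sum.inr _) => none

omit [Fintype L] [DecidableEq L] in
lemma shift_some {i i₀ : Idx p k n L} (h : shift i = some i₀) :
    key i₀ = key i ∧ shift i₀ = none := by
  obtain ⟨b, w | r⟩ := i
  · simp only [shift] at h
    split_ifs at h with hw
    obtain rfl := Option.some.inj h
    refine ⟨by simp [key, length_repW, degree_content], ?_⟩
    simp only [shift]
    rw [dif_neg]
    rintro ⟨-, hne⟩
    exact hne (by rw [content_repW])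
  · simp [shift] at h

/-- The change of coordinates. -/
noncomputable def chg : (Idx p k n L → K) ≃ₗ[K] (Idx p k n L → K) where
  toFun x i := x i - (shift i).elim 0 x
  map_add' x y := by
    funext i
    cases h : shift i
    · simp [h]
    · simp [h]; ring
  map_smul' t x := by
    funext i
    cases h : shift i <;> simp [h, mul_sub]
  invFun x i := x i + (shift i).elim 0 x
  left_inv x := by
    funext i
    cases h : shift i with
    | none => simp [h]
    | some i₀ => simp [h, (shift_some h).2]
  right_inv x := by
    funext i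
    cases h : shift i with
    | none => simp [h]
    | some i₀ => simp [h, (shift_some h).2]

lemma chg_apply (x : Idx p k n L → K) (i : Idx p k n L) :
    chg x i = x i - (shift i).elim 0 x := rfl

lemma chg_symm_apply (x : Idx p k n L → K) (i : Idx p k n L) :
    chg.symm x i = x i + (shift i).elim 0 x := rfl

/-- Supported in one copy and degree. -/
def Hom (t : Fin n × ℕ) (x : Idx p k n L → K) : Prop := ∀ i, x i ≠ 0 → key i = t

lemma hom_chg {t : Fin n × ℕ} {x : Idx p k n L → K} (hx : Hom t x) : Hom t (chg x) := by
  intro i hi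
  rw [chg_apply] at hi
  cases h : shift i with
  | none => exact hx i (by simpa [h] using hi)
  | some i₀ =>
    rw [← (shift_some h).1]
    by_contra hne
    refine hi ?_
    rw [h, show x i = 0 from by_contra fun h' => hne ((shift_some h).1.trans (hx i h')),
      show ((some i₀).elim 0 x : K) = 0 from by_contra fun h' => hne (hx i₀ h'), sub_zero]

lemma hom_chg_symm {t : Fin n × ℕ} {x : Idx p k n L → K} (hx : Hom t x) :
    Hom t (chg.symm x) := by
  intro i hi
  rw [chg_symm_apply] at hi
  cases h : shift i with
  | none => exact hx i (by simpa [h] using hi)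
  | some i₀ =>
    rw [← (shift_some h).1]
    by_contra hne
    refine hi ?_
    rw [h, show x i = 0 from by_contra fun h' => hne ((shift_some h).1.trans (hx i h')),
      show ((some i₀).elim 0 x : K) = 0 from by_contra fun h' => hne (hx i₀ h'), add_zero]

include hF in
lemma hom_mul {t t' : Fin n × ℕ} {x y : Idx p k n L → K} (hx : Hom t x) (hy : Hom t' y)
    {i : Idx p k n L} (hi : mul F x y i ≠ 0) : t.1 = t'.1 ∧ key i = (t.1, t.2 + t'.2) := by
  obtain ⟨b, v⟩ := i
  rw [mul_coord] at hi
  obtain ⟨w, -, hw⟩ := Finset.exists_ne_zero_of_sum_ne_zero hi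
  obtain ⟨w', -, hw'⟩ := Finset.exists_ne_zero_of_sum_ne_zero hw
  have h1 := hx _ (left_ne_zero_of_mul (left_ne_zero_of_mul hw'))
  have h2 := hy _ (right_ne_zero_of_mul (left_ne_zero_of_mul hw'))
  have h3 := right_ne_zero_of_mul hw'
  subst h1 h2
  refine ⟨rfl, ?_⟩
  rcases v with v | r
  · rw [ofList_inl] at h3
    simp only [ne_eq, ite_eq_right_iff, true_and, Classical.not_imp] at h3
    simp [key, h3.1]
  · rw [ofList_inr, if_pos rfl] at h3
    simp [key, ← List.length_append,
      show (w.1 ++ w'.1).length = p ^ (k + 1) from by_contra fun h => h3 (pi_eq_zero hF h)]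

lemma hom_single (a : Idx p k n L) : Hom (key a) (Pi.single a (1 : K)) := fun i hi => by
  by_contra hne
  exact hi (Pi.single_eq_of_ne (fun e => hne (by rw [e])) _)

variable (F)

/-- The algebra in the changed coordinates. -/
noncomputable def core (hp : 2 ≤ p) : Core K (Idx p k n L) where
  deg i := (key i).2
  mu := LinearMap.mk₂ K (fun x y => chg (mul F (chg.symm x) (chg.symm y)))
    (fun x x' y => by simp) (fun t x y => by simp) (fun x y y' => by simp)
    (fun t x y => by simp)
  par i := i.2.isRight
  killed i := i.2.isLeft ∧ (key i).2 ≤ p ^ k ∧ shift i = none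
  deg_pos i := by
    obtain ⟨b, w | r⟩ := i
    · exact w.2.1
    · exact pow_pos (by omega) _
  assoc x y z := by
    simp only [LinearMap.mk₂_apply, LinearEquiv.symm_apply_apply]
    rw [mul_assoc' hF]
  filtered a c i h := by
    rw [LinearMap.mk₂_apply] at h
    have hx := hom_chg_symm (hom_single (K := K) a)
    have hy := hom_chg_symm (hom_single (K := K) c)
    have hm : Hom ((key a).1, (key a).2 + (key c).2) (mul F (chg.symm (Pi.single a (1 : K)))
        (chg.symm (Pi.single c (1 : K)))) := fun i hi => (hom_mul hF hx hy hi).2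
    exact (congrArg Prod.snd (hom_chg hm i h)).ge
  par_left := by
    rintro ⟨b, w | r⟩ h x
    · simp at h
    · have : chg.symm (Pi.single ((b, Sum.inr r) : Idx p k n L) (1 : K)) =
          Pi.single (b, Sum.inr r) 1 := by
        funext i
        rw [chg_symm_apply]
        cases hs : shift i with
        | none => simp
        | some i₀ =>
          have : i₀ ≠ (b, Sum.inr r) := by
            rintro rfl
            obtain ⟨b', w | r'⟩ := i <;> simp [shift] at hs
          simp [this]
      rw [LinearMap.mk₂_apply, this, mul_par_left, map_zero]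
  par_right := by
    rintro ⟨b, w | r⟩ h x
    · simp at h
    · have : chg.symm (Pi.single ((b, Sum.inr r) : Idx p k n L) (1 : K)) =
          Pi.single (b, Sum.inr r) 1 := by
        funext i
        rw [chg_symm_apply]
        cases hs : shift i with
        | none => simp
        | some i₀ =>
          have : i₀ ≠ (b, Sum.inr r) := by
            rintro rfl
            obtain ⟨b', w | r'⟩ := i <;> simp [shift] at hs
          simp [this]
      rw [LinearMap.mk₂_apply, this, mul_par_right, map_zero]
  killed_not_par := by
    rintro ⟨b, w | r⟩ h <;> simp at h ⊢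

variable {F}

lemma core_pw (hp : 2 ≤ p) (t : ℕ) (x : Idx p k n L → K) :
    (core F hF hp).pw t (chg x) = chg (powW F t x) := by
  induction t with
  | zero => rfl
  | succ t ih =>
    rw [Core.pw, pow_succ', Module.End.mul_apply, powW_succ]
    show (core F hF hp).mu (chg x) ((core F hF hp).pw t (chg x)) = _
    rw [ih, core, LinearMap.mk₂_apply, LinearEquiv.symm_apply_apply, LinearEquiv.symm_apply_apply]

lemma core_piter (hp : 2 ≤ p) (b : Fin n) (c : Fin n → K) :
    ∀ j, (core F hF hp).piter p (chg (tens F b c 1)) j = chg (tens F b c (p ^ j)) := by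
  intro j
  induction j with
  | zero => simp [Core.piter]
  | succ j ih =>
    rw [Core.piter, ih, core_pw, powW_tens hF b c (pow_pos (by omega) j)]
    congr 2
    rw [show p - 1 + 1 = p by omega, pow_succ']

end Vale.Agent.P200.PPow.Words

namespace Vale.Agent.P200.PPow

open Words in
/-- The truncated tensor algebra fulfils the specification. -/
theorem exists_wordData {K : Type*} [Field K] {p k n : ℕ} (hp : 2 ≤ p) {L : Type} [Fintype L]
    (F : L → MvPolynomial (Expn n (p ^ k)) K) (hF : ∀ r, (F r).IsHomogeneous p)
    (hzero : ∀ lam : Expn n (p ^ k) → K, (∀ r, MvPolynomial.eval lam (F r) = 0) → lam = 0) :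
    Nonempty (WordData p k F) := by
  classical
  have hpow : 0 < p ^ k := pow_pos (by omega) k
  have hlt : p ^ k < p ^ (k + 1) := Nat.pow_lt_pow_right (by omega) (Nat.lt_succ_self k)
  let letter : Fin n → Fin n → Idx p k n L := fun b i =>
    (b, Sum.inl ⟨[i], by simp, by simpa using lt_of_le_of_lt hpow hlt⟩)
  have hshift1 : ∀ b i, shift (letter b i) = none := fun b i => by
    simp only [letter, shift]
    rw [dif_neg]
    rintro ⟨-, hne⟩
    refine hne ?_
    simp [content, repW]
  have hv : ∀ (b : Fin n) (c : Fin n → K),
      (∑ m, c m • Pi.single (letter b m) (1 : K)) = chg (tens F b c 1) := by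
    intro b c
    have h1 : tens F b c 1 = ∑ m, c m • Pi.single (letter b m) (1 : K) := by
      rw [tens, ← (Equiv.funUnique (Fin 1) (Fin n)).symm.sum_comp]
      refine Finset.sum_congr rfl fun m _ => ?_
      rw [← ofList_word hF]
      simp
    rw [h1]
    funext i
    rw [chg_apply]
    cases hs : shift i with
    | none => simp
    | some i₀ =>
      have h0 : ∀ m, i₀ ≠ letter b m := fun m e => by
        obtain ⟨b', w | r⟩ := i
        · have hlen := (shift_some hs).1
          rw [e] at hlen
          simp only [shift] at hs
          split_ifs at hs with hw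
          simp only [key, letter, List.length_singleton, Prod.mk.injEq] at hlen
          refine hw.2 ?_
          obtain ⟨j, hj⟩ := List.length_eq_one_iff.1 hlen.2.symm
          simp [hj, content, repW]
        · simp [shift] at hs
      simp [Finset.sum_apply, h0]
  refine ⟨{ ι := Idx p k n L, C := core F hF hp, blk := Prod.fst, letter := letter,
            zc := fun b r => (b, Sum.inr r), blk_letter := fun b i => rfl,
            letter_inj := fun b i i' h => by simpa [letter] using h,
            letter_gen := fun b i => by simp [letter, core],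
            deg_letter := fun b i => by simp [letter, core, key],
            par_zc := fun b r => by simp [core],
            mu_blk := ?_, aniso := ?_, piter_killed := ?_, piter_top := ?_ }⟩
  · intro a c i h
    have hi : chg (mul F (chg.symm (Pi.single a (1 : K))) (chg.symm (Pi.single c (1 : K)))) i ≠ 0 := h
    have hx := hom_chg_symm (hom_single (K := K) a)
    have hy := hom_chg_symm (hom_single (K := K) c)
    obtain ⟨i', hi'⟩ : ∃ i', mul F (chg.symm (Pi.single a (1 : K)))
        (chg.symm (Pi.single c (1 : K))) i' ≠ 0 := by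
      by_contra hne
      push Not at hne
      rw [show mul F (chg.symm (Pi.single a (1 : K))) (chg.symm (Pi.single c (1 : K))) = 0 from
        funext hne, map_zero] at hi
      exact hi rfl
    have hm : Hom ((key a).1, (key a).2 + (key c).2) (mul F (chg.symm (Pi.single a (1 : K)))
        (chg.symm (Pi.single c (1 : K)))) := fun i hi => (hom_mul hF hx hy hi).2
    have hkey := hom_chg hm i hi
    have hfst : ∀ j : Idx p k n L, (key j).1 = j.1 := by rintro ⟨b, w | r⟩ <;> rfl
    refine ⟨?_, ?_⟩
    · rw [← hfst a, ← hfst c]; exact (hom_mul hF hx hy hi').1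
    · rw [← hfst i, ← hfst a, hkey]
  · intro u hpar hu
    by_cases hfree : ∃ i, ¬ (core F hF hp).killed i ∧ u i ≠ 0
    · exact Or.inr hfree
    left
    push Not at hfree
    obtain ⟨x, rfl⟩ := (chg (K := K) (p := p) (k := k) (n := n) (L := L)).surjective u
    have hx0 : x ≠ 0 := fun h => hu (by rw [h, map_zero])
    rw [core_pw, ne_eq, LinearEquiv.map_eq_zero_iff]
    -- the free coordinates vanish
    have hfx : ∀ b (w : Wd p k n),
        ¬ (w.1.length ≤ p ^ k ∧ shift ((b, Sum.inl w) : Idx p k n L) = none) →
        chg x (b, Sum.inl w) = 0 := fun b w h => hfree _ fun hk => h ⟨hk.2.1, hk.2.2⟩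
    have hlong : ∀ b (w : Wd p k n), p ^ k < w.1.length → x (b, Sum.inl w) = 0 := by
      intro b w h
      have := hfx b w fun h' => by omega
      rwa [chg_apply, show shift ((b, Sum.inl w) : Idx p k n L) = none by
        simp only [shift]; rw [dif_neg]; rintro ⟨h', -⟩; omega, Option.elim_none, sub_zero] at this
    have hword : ∃ b l, cf b x l ≠ 0 := by
      obtain ⟨⟨b, w | r⟩, hi⟩ := Function.ne_iff.1 hx0
      · exact ⟨b, w.1, by rwa [cf_word]⟩
      · refine absurd ?_ hi
        have := hpar (b, Sum.inr r) (by simp [core])
        simpa [chg_apply, shift] using this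
    obtain ⟨b, hb⟩ := hword
    have hex : ∃ j, ∃ l : List (Fin n), l.length = j ∧ cf b x l ≠ 0 := by
      obtain ⟨l, hl⟩ := hb; exact ⟨_, l, rfl, hl⟩
    obtain ⟨l, hlj, hl⟩ := Nat.find_spec hex
    set j := Nat.find hex
    have hlow : ∀ l : List (Fin n), l.length < j → cf b x l = 0 := fun l h => by
      by_contra hne
      exact Nat.find_min hex h ⟨l, rfl, hne⟩
    have hmemW : 0 < l.length ∧ l.length < p ^ (k + 1) := by
      by_contra hne
      refine hl (Finset.sum_eq_zero fun w _ => if_neg fun e => hne ?_)
      rw [← e]; exact w.2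
    have hjk : j ≤ p ^ k := by
      by_contra h
      exact hl (by rw [show l = (⟨l, hmemW⟩ : Wd p k n).1 from rfl, cf_word]
                   exact hlong b _ (by show p ^ k < l.length; omega))
    intro h0
    rcases hjk.lt_or_eq with hjk | hjk
    · have hQ : (p - 1 + 1) * j < p ^ (k + 1) := by
        rw [show p - 1 + 1 = p by omega, pow_succ']
        exact Nat.mul_lt_mul_of_pos_left hjk (by omega)
      have := (cf_powW (F := F) b x hlow (p - 1) hQ.le).2 hQ (List.replicate (p - 1 + 1) l)
        (fun w hw => by rw [List.eq_of_mem_replicate hw, hlj]) List.length_replicate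
      rw [h0, List.map_replicate, List.prod_replicate] at this
      have hz : cf b (0 : Idx p k n L → K) (List.replicate (p - 1 + 1) l).flatten = 0 := by
        simp [cf]
      exact pow_ne_zero _ hl (hz ▸ this).symm
    · refine hl ?_
      have hlam : (fun α : Expn n (p ^ k) => cf b x (repW α.1)) = 0 := hzero _ fun r => by
        rw [← top_powW hF hp b x (fun l h => hlow l (by omega)) r, h0]; rfl
      have hrep : cf b x (repW (content l)) = 0 :=
        congrFun hlam ⟨content l, by rw [degree_content, hlj, hjk]⟩
      by_cases hc : repW (content l) = l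
      · rwa [hc] at hrep
      have := hfx b ⟨l, hmemW⟩ fun h => by
        have := h.2
        simp only [shift] at this
        rw [dif_pos ⟨hlj.trans hjk, hc⟩] at this
        simp at this
      rw [chg_apply] at this
      simp only [shift] at this
      rw [dif_pos ⟨hlj.trans hjk, hc⟩, Option.elim_some] at this
      have hmemR : 0 < (repW (content l)).length ∧ (repW (content l)).length < p ^ (k + 1) := by
        rw [length_repW, degree_content]; exact hmemW
      have e1 : cf b x l = x (b, Sum.inl ⟨l, hmemW⟩) := cf_word b x ⟨l, hmemW⟩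
      have e2 : cf b x (repW (content l)) = x (b, Sum.inl ⟨_, hmemR⟩) :=
        cf_word b x ⟨_, hmemR⟩
      rw [← e1, ← e2, hrep, sub_zero] at this
      exact this
  · intro b c j hj i hi
    rw [hv, core_piter hF hp] at hi
    have hj' : p ^ j ≤ p ^ k := Nat.pow_le_pow_right (by omega) hj
    obtain ⟨b', w | r⟩ := i
    · rw [chg_apply] at hi
      refine ⟨by simp, ?_, ?_⟩
      · show w.1.length ≤ p ^ k
        by_contra h
        refine hi ?_
        have hs : shift ((b', Sum.inl w) : Idx p k n L) = none := by
          simp only [shift]; rw [dif_neg]; rintro ⟨h', -⟩; omega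
        rw [hs, tens_inl, if_neg (fun e => by omega)]
        simp
      · cases hs : shift ((b', Sum.inl w) : Idx p k n L) with
        | none => rfl
        | some i₀ =>
          exfalso
          refine hi ?_
          simp only [shift] at hs
          split_ifs at hs with hw
          rw [show shift ((b', Sum.inl w) : Idx p k n L) = some i₀ by
            simp only [shift]; rw [dif_pos hw]; exact hs]
          obtain rfl := Option.some.inj hs
          simp only [Option.elim_some, tens_inl, length_repW, degree_content, wval_repW_content]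
          simp
    · refine absurd ?_ hi
      rw [chg_apply]
      simp only [tens, Finset.sum_apply, Pi.smul_apply, ofList_inr, shift, Option.elim_none,
        sub_zero, smul_eq_mul]
      refine Finset.sum_eq_zero fun f _ => ?_
      rw [pi_eq_zero hF (by rw [List.length_ofFn]; omega)]
      simp
  · intro b c
    rw [hv, core_piter hF hp]
    funext ⟨b', i⟩
    rw [chg_apply, Finset.sum_apply]
    simp only [Pi.smul_apply, Pi.single_apply, smul_eq_mul, mul_ite, mul_one, mul_zero]
    rcases i with w | r
    · have hs : ∀ v : Wd p k n, tens F b c (p ^ (k + 1)) (b', Sum.inl v) = 0 := fun v => by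
        rw [tens_inl, if_neg (fun e => by have := v.2.2; omega)]
      rw [hs, Finset.sum_eq_zero fun r _ => if_neg (by simp)]
      cases h : shift ((b', Sum.inl w) : Idx p k n L) with
      | none => simp
      | some i₀ =>
        obtain ⟨b₀, v | r⟩ := i₀
        · simp only [shift] at h
          split_ifs at h
          simp only [Option.some.injEq, Prod.mk.injEq, Sum.inl.injEq] at h
          obtain ⟨rfl, rfl⟩ := h
          simp [hs]
        · simp only [shift] at h
          split_ifs at h
          simp at h
    · rw [tens_inr hF]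
      by_cases hb : b' = b <;> simp [shift, hb]

end Vale.Agent.P200.PPow
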