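import Vale.Agent.P200.PPow.Instance
import Vale.Agent.P200.PPow.Words
import Vale.Agent.P200.PPow.Glue

/-!
Blocks from the truncated tensor algebra, and models for forms of degree `p ^ (k + 1)` in
characteristic `p`.
-/

namespace Vale.Agent.P200.PPow

open MvPolynomial Module
open _root_.Vale.Agent.P200.Prime (Par)

set_option linter.unusedSectionVars false

universe u

variable {K : Type u} [Field K] {p : ℕ} [hp : Fact p.Prime] [CharP K p] {k n : ℕ}
variable {L : Type} [Fintype L] {F : L → MvPolynomial (Expn n (p ^ k)) K}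

namespace WordData

variable (W : WordData p k F)

attribute [local instance] WordData.fin WordData.dec

/-- A letter as an element of the algebra. -/
noncomputable def xi (b i : Fin n) : W.C.R p :=
  ⟨W.C.rhoQ (Pi.single (W.letter b i) 1), W.C.rhoQ_mem p _⟩

/-- A coefficient of a form as an element of the algebra. -/
noncomputable def zel (b : Fin n) (l : L) : W.C.R p :=
  ⟨W.C.rhoQ (Pi.single (W.zc b l) 1), W.C.rhoQ_mem p _⟩

lemma mu_eq_zero {a c : W.ι} (h : W.blk a ≠ W.blk c) :
    W.C.mu (Pi.single a 1) (Pi.single c 1) = 0 := funext fun i => by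
  by_contra hi
  exact h (W.mu_blk a c i hi).1

lemma xi_comm {b b' : Fin n} (h : b ≠ b') (i j : Fin n) :
    W.xi b i * W.xi b' j = W.xi b' j * W.xi b i := by
  refine Subtype.ext (sub_eq_zero.1 ?_)
  show W.C.rhoQ (p := p) _ * W.C.rhoQ _ - W.C.rhoQ _ * W.C.rhoQ _ = 0
  rw [W.C.rhoQ_bracket, W.mu_eq_zero (by rwa [W.blk_letter, W.blk_letter]),
    W.mu_eq_zero (by rwa [W.blk_letter, W.blk_letter, ne_comm]), sub_zero, map_zero]

lemma xi_pow (b : Fin n) (c : Fin n → K) :
    (∑ i, c i • W.xi b i) ^ (p ^ (k + 1)) =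
      ∑ l, eval c (mult K n (p ^ k) (F l)) • W.zel b l := by
  set v := ∑ m, c m • Pi.single (W.letter b m) (1 : K)
  have key : ∀ j, j ≤ k + 1 → W.C.rhoQ (p := p) v ^ (p ^ j) = W.C.rhoQ (W.C.piter p v j) := by
    intro j
    induction j with
    | zero => intro _; simp [Core.piter]
    | succ j ih =>
      intro hj
      rw [pow_succ, pow_mul, ih (by omega), W.C.rhoQ_pow]
      have hz : W.C.qm p (∑ i, W.C.piter p v j i ^ p • (X i : MvPolynomial W.ι K) ^ p) = 0 := by
        rw [map_sum]
        refine Finset.sum_eq_zero fun i _ => ?_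
        by_cases hi : W.C.piter p v j i = 0
        · rw [hi, zero_pow hp.out.ne_zero, zero_smul, map_zero]
        · rw [map_smul, (W.C.qm_eq_zero p).2 fun γ hγ =>
            ⟨i, W.piter_killed b c j (by omega) i hi, ?_⟩, smul_zero]
          rw [X_pow_eq_monomial] at hγ
          rw [Finset.mem_singleton.1 (support_monomial_subset hγ)]
          simp
      rw [hz, LinearMap.mulLeft_zero_eq_zero, add_zero]
      rfl
  refine Subtype.ext ?_
  rw [SubmonoidClass.coe_pow, AddSubmonoidClass.coe_finsetSum, AddSubmonoidClass.coe_finsetSum]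
  have hv : ∑ i, ((c i • W.xi b i : W.C.R p) : Module.End K (W.C.S0 p)) = W.C.rhoQ v := by
    rw [map_sum]
    exact Finset.sum_congr rfl fun i _ => by rw [map_smul]; rfl
  rw [hv, key (k + 1) le_rfl, W.piter_top, map_sum]
  exact Finset.sum_congr rfl fun l _ => by rw [map_smul]; rfl

/-- Indices avoiding a block. -/
def free (b : Fin n) : Set (Fin W.C.r → Fin p) :=
  {α | ∀ j, W.blk (W.C.gi j) = b → (α j : ℕ) = 0}

/-- The part of the quotient avoiding a block. -/
noncomputable def avoidS (b : Fin n) : Submodule (Par K W.C.q) (W.C.S0 p) :=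
  Submodule.span (Par K W.C.q) (W.C.xBasis p '' W.free b)

/-- The part of the algebra avoiding a block. -/
noncomputable def avoid (b : Fin n) : Submodule (Par K W.C.q) (W.C.R p) :=
  (W.avoidS b).comap (W.C.ev p)

lemma qm_supported {b : Fin n} {f : MvPolynomial W.ι K}
    (hf : f ∈ supported K {i | W.blk i ≠ b}) : W.C.qm p f ∈ W.avoidS b := by
  rw [f.as_sum, map_sum]
  refine Submodule.sum_mem _ fun γ hγ => ?_
  rw [show monomial γ (coeff γ f) = coeff γ f • monomial γ (1 : K) by
    rw [smul_monomial, smul_eq_mul, mul_one], map_smul,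
    ← algebraMap_smul (Par K W.C.q) (coeff γ f)]
  refine Submodule.smul_mem _ _ ?_
  rcases W.C.qm_monomial_mem p γ with h | ⟨β, α, he, h⟩
  · rw [h]; exact zero_mem _
  · rw [h]
    refine Submodule.smul_mem _ _ (Submodule.subset_span ⟨α, fun j hj => ?_,
      W.C.xBasis_apply p α⟩)
    have h0 : γ (W.C.gi j) = 0 := by
      by_contra hne
      have hvar : W.C.gi j ∈ f.vars := (mem_vars_iff_mem_support _).2
        ⟨γ, hγ, Finsupp.mem_support_iff.2 hne⟩
      exact mem_supported.1 hf (Finset.mem_coe.2 hvar) hj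
    rw [← he] at h0
    by_cases hkill : W.C.killed (W.C.gi j)
    · rwa [W.C.expo'_killed _ _ _ hkill, W.C.sum_gi j rfl] at h0
    · obtain ⟨l, hl⟩ := W.C.exists_pi hkill
      rw [← hl, W.C.expo'_pi, W.C.sum_gi j hl.symm] at h0
      omega

lemma xm_supported {b : Fin n} {α : Fin W.C.r → Fin p} (h : α ∈ W.free b) :
    W.C.xm p α ∈ supported K {i | W.blk i ≠ b} := by
  refine Subalgebra.prod_mem _ fun j _ => ?_
  by_cases hj : W.blk (W.C.gi j) = b
  · rw [h j hj, pow_zero]; exact one_mem _
  · exact Subalgebra.pow_mem _ (X_mem_supported.2 hj) _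

lemma xi_mem_avoidS {b c : Fin n} (hc : c ≠ b) (i : Fin n) {s : W.C.S0 p}
    (hs : s ∈ W.avoidS b) :
    W.C.rhoQ (Pi.single (W.letter c i) 1) s ∈ W.avoidS b := by
  induction hs using Submodule.span_induction with
  | mem s hs =>
    obtain ⟨α, hα, rfl⟩ := hs
    rw [W.C.xBasis_apply, W.C.rhoQ_qm, W.C.rho_apply, Core.lin_single, one_smul]
    refine W.qm_supported (add_mem (mul_mem (X_mem_supported.2 ?_) (W.xm_supported hα)) ?_)
    · show W.blk (W.letter c i) ≠ b
      rwa [W.blk_letter]
    · have hgen : ∀ a, W.C.der (Pi.single (W.letter c i) 1) (X a) ∈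
          supported K {i | W.blk i ≠ b} := by
        intro a
        rw [W.C.der_X, Core.lin_apply]
        refine Subalgebra.sum_mem _ fun d _ => ?_
        by_cases hd : W.C.mu (Pi.single (W.letter c i) 1) (Pi.single a 1) d = 0
        · rw [hd, zero_smul]; exact zero_mem _
        · refine Subalgebra.smul_mem _ (X_mem_supported.2 ?_) _
          show W.blk d ≠ b
          rw [(W.mu_blk _ _ _ hd).2, W.blk_letter]
          exact hc
      have key : ∀ f ∈ supported K {i | W.blk i ≠ b},
          W.C.der (Pi.single (W.letter c i) 1) f ∈ supported K {i | W.blk i ≠ b} := by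
        intro f hf
        rw [supported_eq_adjoin_X] at hf
        induction hf using Algebra.adjoin_induction with
        | mem f hf => obtain ⟨a, -, rfl⟩ := hf; exact hgen a
        | algebraMap a => rw [Derivation.map_algebraMap]; exact zero_mem _
        | add f g _ _ hf hg => rw [map_add]; exact add_mem hf hg
        | mul f g hf' hg' hf hg =>
          rw [Derivation.leibniz, smul_eq_mul, smul_eq_mul]
          rw [← supported_eq_adjoin_X] at hf' hg'
          exact add_mem (mul_mem hf' hg) (mul_mem hg' hf)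
      exact key _ (W.xm_supported hα)
  | zero => rw [map_zero]; exact zero_mem _
  | add a b _ _ ha hb => rw [map_add]; exact add_mem ha hb
  | smul t a _ ha => rw [W.C.rhoQ_par]; exact Submodule.smul_mem _ _ ha

lemma rhoQ_avoidS {b : Fin n} (i : Fin n) {s : W.C.S0 p} (hs : s ∈ W.avoidS b) :
    W.C.rhoQ (Pi.single (W.letter b i) 1) s = W.C.qm p (X (W.letter b i)) * s := by
  induction hs using Submodule.span_induction with
  | mem s hs =>
    obtain ⟨α, hα, rfl⟩ := hs
    have key : ∀ f ∈ supported K {i | W.blk i ≠ b},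
        W.C.der (Pi.single (W.letter b i) 1) f = 0 := by
      intro f hf
      rw [supported_eq_adjoin_X] at hf
      induction hf using Algebra.adjoin_induction with
      | mem f hf =>
        obtain ⟨a, ha, rfl⟩ := hf
        rw [W.C.der_X, W.mu_eq_zero (by rw [W.blk_letter]; exact fun h => ha h.symm), map_zero]
      | algebraMap a => exact Derivation.map_algebraMap _ _
      | add f g _ _ hf hg => rw [map_add, hf, hg, add_zero]
      | mul f g _ _ hf hg => rw [Derivation.leibniz, hf, hg, smul_zero, smul_zero, add_zero]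
    rw [W.C.xBasis_apply, W.C.rhoQ_qm, W.C.rho_apply, Core.lin_single, one_smul,
      key _ (W.xm_supported hα), add_zero, map_mul]
  | zero => simp
  | add x y _ _ hx hy => rw [map_add, hx, hy, mul_add]
  | smul t x _ hx => rw [W.C.rhoQ_par, hx, mul_smul_comm]

lemma indep (b : Fin n) (T : Fin n → W.C.R p) (hT : ∀ i, T i ∈ W.avoid b)
    (h : ∑ i, W.xi b i * T i = 0) : T = 0 := by
  classical
  have h0 := congrArg (W.C.ev p) h
  rw [map_sum, map_zero] at h0
  choose kk hkk using fun i => W.C.exists_gi (W.letter_gen b i)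
  have hlow : ∀ i α, (W.C.xBasis p).repr (W.C.ev p (T i)) α ≠ 0 → (α (kk i) : ℕ) = 0 := by
    intro i α hα
    exact ((W.C.xBasis p).mem_span_image.1 (hT i) (Finsupp.mem_support_iff.2 hα)) (kk i)
      (by rw [hkk, W.blk_letter])
  have hb : ∀ i j, kk i = kk j → i = j := fun i j hij => by
    refine W.letter_inj b ?_
    rw [← hkk i, ← hkk j, hij]
  let up : Fin n → (Fin W.C.r → Fin p) → Fin W.C.r → Fin p := fun i α =>
    Function.update α (kk i) ⟨1, hp.out.one_lt⟩
  have hterm : ∀ i, W.C.ev p (W.xi b i * T i) =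
      ∑ α, (W.C.xBasis p).repr (W.C.ev p (T i)) α • W.C.xBasis p (up i α) := by
    intro i
    show W.C.rhoQ (Pi.single (W.letter b i) 1) (W.C.ev p (T i)) = _
    rw [W.rhoQ_avoidS i (hT i)]
    conv_lhs => rw [← (W.C.xBasis p).sum_repr (W.C.ev p (T i)), Finset.mul_sum]
    refine Finset.sum_congr rfl fun α _ => ?_
    by_cases hα : (W.C.xBasis p).repr (W.C.ev p (T i)) α = 0
    · simp [hα]
    · rw [mul_smul_comm]
      congr 1
      rw [W.C.xBasis_apply, W.C.xBasis_apply, ← map_mul]
      congr 1
      have h0 := hlow i α hα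
      simp only [Core.xm]
      rw [← Finset.mul_prod_erase Finset.univ _ (Finset.mem_univ (kk i)),
        ← Finset.mul_prod_erase Finset.univ (fun j => (X (W.C.gi j) : MvPolynomial W.ι K) ^
          (up i α j : ℕ)) (Finset.mem_univ (kk i))]
      simp only [up, Function.update_self, h0, pow_zero, one_mul, pow_one, hkk]
      congr 1
      exact Finset.prod_congr rfl fun j hj => by
        rw [Function.update_of_ne (Finset.ne_of_mem_erase hj)]
  funext i₀
  apply W.C.ev_injective p
  rw [Pi.zero_apply, map_zero]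
  refine (W.C.xBasis p).repr.map_eq_zero_iff.1 (Finsupp.ext fun α₀ => ?_)
  by_contra hne
  rw [Finsupp.zero_apply] at hne
  apply hne
  have h1 := congrArg (fun s => (W.C.xBasis p).repr s (up i₀ α₀)) h0
  simp only [hterm, map_sum, map_smul, map_zero, Finsupp.zero_apply, Finsupp.finsetSum_apply,
    Finsupp.smul_apply, Basis.repr_self, Finsupp.single_apply, smul_eq_mul, mul_ite, mul_one,
    mul_zero] at h1
  rw [Finset.sum_eq_single i₀, Finset.sum_eq_single α₀, if_pos rfl] at h1
  · exact h1
  · intro α _ hα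
    split_ifs with he
    · by_contra hc
      refine hα (funext fun j => ?_)
      rcases eq_or_ne j (kk i₀) with rfl | hj
      · exact Fin.ext (by rw [hlow i₀ α hc, hlow i₀ α₀ hne])
      · simpa [up, hj] using congrFun he j
    · rfl
  · simp
  · intro i _ hi
    refine Finset.sum_eq_zero fun α _ => ?_
    split_ifs with he
    · by_contra hc
      have h2 := congrArg (fun x : Fin p => (x : ℕ)) (congrFun he (kk i))
      have h3 : kk i ≠ kk i₀ := fun hij => hi (hb _ _ hij)
      simp only [up, Function.update_self, Function.update_of_ne h3] at h2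
      have := (W.C.xBasis p).mem_span_image.1 (hT i₀) (Finsupp.mem_support_iff.2 hne) (kk i)
        (by rw [hkk, W.blk_letter])
      omega
    · rfl
  · simp

lemma one_mem_avoid (b : Fin n) : (1 : W.C.R p) ∈ W.avoid b := by
  show W.C.ev p 1 ∈ W.avoidS b
  rw [Core.ev_apply, OneMemClass.coe_one, Module.End.one_apply, ← map_one (W.C.qm p)]
  exact W.qm_supported (one_mem _)

lemma mul_mem_avoid (b c : Fin n) (hc : c ≠ b) (i : Fin n) (T : W.C.R p) (hT : T ∈ W.avoid b) :
    W.xi c i * T ∈ W.avoid b :=
  W.xi_mem_avoidS hc i hT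

end WordData

/-- Blocks in a domain for regular sequences of forms of degree `p ^ (k + 1)` in characteristic
`p`. -/
theorem exists_blocks (K : Type u) [Field K] [IsAlgClosed K] (p : ℕ) [hp : Fact p.Prime]
    [CharP K p] (k : ℕ) {n : ℕ} (f : Fin n → MvPolynomial (Fin n) K)
    (hf : ∀ i, (f i).IsHomogeneous (p ^ (k + 1))) (hreg : RegList ⊥ (List.ofFn f)) :
    ∃ (r : ℕ) (R : Type u) (_ : Ring R) (_ : Algebra K R) (_ : Algebra (Par K r) R)
      (_ : IsScalarTower K (Par K r) R) (_ : Module.Free (Par K r) R)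
      (_ : Module.Finite (Par K r) R) (_ : NoZeroDivisors R) (_ : Nontrivial R),
      Nonempty (Blocks K f (p ^ (k + 1)) r R) := by
  classical
  have h2 := hp.out.two_le
  have hzero : ∀ c : Fin n → K, (∀ l, eval c (f l) = 0) → c = 0 :=
    Prime.eq_zero_of_common_zero (a := fun _ => p ^ (k + 1)) (fun _ => pow_pos (by omega) _) hf hreg
  have hf' : ∀ l, (f l).IsHomogeneous (p * p ^ k) := fun l => by rw [← pow_succ']; exact hf l
  obtain ⟨M, F, hF, hmem, hFzero⟩ := exists_family h2 (pow_pos (by omega) k) hf' hzero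
  obtain ⟨W⟩ := exists_wordData h2 F hF hFzero
  let := W.fin
  let := W.dec
  have hfree : Module.Free (Par K W.C.q) (W.C.R p) := Module.Free.of_basis (W.C.monBasis p)
  have hfin : Module.Finite (Par K W.C.q) (W.C.R p) := Module.Finite.of_basis (W.C.monBasis p)
  have hdom := W.C.noZeroDivisors (p := p) W.aniso
  have hnt : Nontrivial (W.C.R p) := (W.C.monBasis p).repr.toEquiv.nontrivial
  exact ⟨W.C.q, W.C.R p, inferInstance, inferInstance, inferInstance, inferInstance, hfree, hfin,
    hdom, hnt, ⟨{
      xi := W.xi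
      size := M
      h := fun l => mult K n (p ^ k) (F l)
      z := fun b l => W.zel b l
      avoid := W.avoid
      h_mem := hmem
      comm := fun b c h i j => W.xi_comm h i j
      pow := W.xi_pow
      one_mem := W.one_mem_avoid
      mul_mem := W.mul_mem_avoid
      indep := W.indep }⟩⟩

/-- Models for regular sequences of forms of degree `p ^ (k + 1)` in characteristic `p`. -/
theorem models (K : Type u) [Field K] [IsAlgClosed K] (p : ℕ) [hp : Fact p.Prime] [CharP K p]
    (k : ℕ) {n : ℕ} {a : Fin n → ℕ} (ha : ∀ i, a i = p ^ (k + 1)) : Cyc.Models K a :=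
  models_of_blocks (pow_pos hp.out.pos _) ha fun f hf hreg => exists_blocks K p k f hf hreg

end Vale.Agent.P200.PPow
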