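import Vale.Agent.P200.PPow.Weights

/-!
The operators on the quotient and their weights.
-/

namespace Vale.Agent.P200.PPow

set_option linter.unusedSectionVars false

open MvPolynomial Module
open _root_.Vale.Agent.P200.Prime (Par)

namespace Core

variable {K : Type*} [Field K] {ι : Type} [Fintype ι] [DecidableEq ι] (C : Core K ι)
variable {p : ℕ} [hp : Fact p.Prime] [CharP K p]

omit [Fintype ι] [DecidableEq ι] hp in
lemma derivation_X_pow (E : Derivation K (MvPolynomial ι K) (MvPolynomial ι K)) (i : ι) :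
    E (X i ^ p) = 0 := by
  rw [Derivation.leibniz_pow, ← Nat.cast_smul_eq_nsmul K, CharP.cast_eq_zero K p, zero_smul]

lemma derivation_kIdeal (E : Derivation K (MvPolynomial ι K) (MvPolynomial ι K))
    {f : MvPolynomial ι K} (hf : C.qm p f = 0) : C.qm p (E f) = 0 := by
  have hf' : f ∈ C.kIdeal p := Ideal.Quotient.eq_zero_iff_mem.1 hf
  refine Ideal.Quotient.eq_zero_iff_mem.2 ?_
  clear hf
  induction hf' using Submodule.span_induction with
  | mem g hg =>
    obtain ⟨s, ⟨i, -, rfl⟩, rfl⟩ := hg
    simp only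
    rw [show (monomial (Finsupp.single i p) (1 : K) : MvPolynomial ι K) = X i ^ p from
      (X_pow_eq_monomial).symm, derivation_X_pow]
    exact zero_mem _
  | zero => rw [map_zero]; exact zero_mem _
  | add g h _ _ hg hh => rw [map_add]; exact add_mem hg hh
  | smul a g hg' hg =>
    rw [smul_eq_mul, Derivation.leibniz, smul_eq_mul, smul_eq_mul]
    exact add_mem (Ideal.mul_mem_left _ _ hg) (Ideal.mul_mem_right _ _ hg')

/-- An operator on the quotient from a linear form and a derivation. -/
noncomputable def descOp (g : MvPolynomial ι K)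
    (E : Derivation K (MvPolynomial ι K) (MvPolynomial ι K)) : Module.End K (C.S0 p) :=
  LinearMap.mulLeft K (C.qm p g) +
    (Derivation.liftOfSurjective (C.qm_surjective p) (d := E)
      fun _ => C.derivation_kIdeal E).toLinearMap

lemma descOp_qm (g : MvPolynomial ι K) (E : Derivation K (MvPolynomial ι K) (MvPolynomial ι K))
    (f : MvPolynomial ι K) : C.descOp g E (C.qm p f) = C.qm p (g * f + E f) := by
  rw [descOp, LinearMap.add_apply, LinearMap.mulLeft_apply, Derivation.coeFn_coe,
    Derivation.liftOfSurjective_apply, map_add, map_mul]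

/-- The representation on the quotient. -/
noncomputable def rhoQ : (ι → K) →ₗ[K] Module.End K (C.S0 p) where
  toFun x := C.descOp (lin x) (C.der x)
  map_add' x y := LinearMap.ext fun s => by
    obtain ⟨f, rfl⟩ := C.qm_surjective p s
    rw [LinearMap.add_apply, descOp_qm, descOp_qm, descOp_qm, ← C.rho_apply, ← C.rho_apply,
      ← C.rho_apply, map_add, LinearMap.add_apply, map_add]
  map_smul' c x := LinearMap.ext fun s => by
    obtain ⟨f, rfl⟩ := C.qm_surjective p s
    rw [RingHom.id_apply, LinearMap.smul_apply, descOp_qm, descOp_qm, ← C.rho_apply, ← C.rho_apply,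
      map_smul, LinearMap.smul_apply, map_smul]

/-- The commuting representation on the quotient. -/
noncomputable def rhoQ' (x : ι → K) : Module.End K (C.S0 p) := C.descOp (lin x) (C.der' x)

lemma rhoQ_qm (x : ι → K) (f : MvPolynomial ι K) :
    C.rhoQ x (C.qm p f) = C.qm p (C.rho x f) := C.descOp_qm ..

lemma rhoQ'_qm (x : ι → K) (f : MvPolynomial ι K) :
    C.rhoQ' x (C.qm p f) = C.qm p (C.rho' x f) := C.descOp_qm ..

lemma rhoQ_comm (x y : ι → K) : Commute (C.rhoQ (p := p) x) (C.rhoQ' y) :=
  LinearMap.ext fun s => by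
    obtain ⟨f, rfl⟩ := C.qm_surjective p s
    simp only [Module.End.mul_apply, rhoQ_qm, rhoQ'_qm]
    exact congrArg (C.qm p) (LinearMap.congr_fun (C.rho_comm x y) f)

lemma rhoQ_bracket (x y : ι → K) :
    C.rhoQ (p := p) x * C.rhoQ y - C.rhoQ y * C.rhoQ x = C.rhoQ (C.mu x y - C.mu y x) :=
  LinearMap.ext fun s => by
    obtain ⟨f, rfl⟩ := C.qm_surjective p s
    rw [LinearMap.sub_apply, Module.End.mul_apply, Module.End.mul_apply, rhoQ_qm, rhoQ_qm, rhoQ_qm,
      rhoQ_qm, rhoQ_qm, ← map_sub, ← C.rho_bracket, LinearMap.sub_apply, Module.End.mul_apply,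
      Module.End.mul_apply]

lemma rhoQ_pow (x : ι → K) :
    C.rhoQ (p := p) x ^ p = C.rhoQ (C.pw (p - 1) x) +
      LinearMap.mulLeft K (C.qm p (∑ i, x i ^ p • (X i : MvPolynomial ι K) ^ p)) := by
  have h : ∀ (t : ℕ) (f : MvPolynomial ι K),
      (C.rhoQ x ^ t) (C.qm p f) = C.qm p ((C.rho x ^ t) f) := by
    intro t
    induction t with
    | zero => simp
    | succ t ih =>
      intro f
      rw [pow_succ', pow_succ', Module.End.mul_apply, Module.End.mul_apply, ih, rhoQ_qm]
  refine LinearMap.ext fun s => ?_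
  obtain ⟨f, rfl⟩ := C.qm_surjective p s
  rw [h, C.rho_pow, LinearMap.add_apply, LinearMap.add_apply, map_add, rhoQ_qm,
    LinearMap.mulLeft_apply, LinearMap.mulLeft_apply, map_mul]

/-- A derivation killing `p`-th powers and the central coordinates kills the parameters. -/
lemma derivation_parHom (E : Derivation K (MvPolynomial ι K) (MvPolynomial ι K))
    (hE : ∀ i, C.par i → E (X i) = 0) (c : Par K C.q) : E (C.parHom p c) = 0 := by
  induction c using MvPolynomial.induction_on with
  | C a => rw [parHom, aeval_C, MvPolynomial.algebraMap_eq, derivation_C]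
  | add u w hu hw => rw [map_add, map_add, hu, hw, add_zero]
  | mul_X u l hu =>
    rw [map_mul, Derivation.leibniz, hu, smul_zero, add_zero, parHom, aeval_X, pval, mult]
    split_ifs with h
    · rw [pow_one, hE _ h, smul_zero]
    · rw [derivation_X_pow, smul_zero]

lemma der_par (x : ι → K) {i : ι} (hi : C.par i) : C.der x (X i) = 0 := by
  rw [der_X, C.par_right i hi, map_zero]

lemma der'_par (x : ι → K) {i : ι} (hi : C.par i) : C.der' x (X i) = 0 := by
  rw [der'_X, C.par_left i hi, map_zero]

lemma descOp_par (g : MvPolynomial ι K) (E : Derivation K (MvPolynomial ι K) (MvPolynomial ι K))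
    (hE : ∀ i, C.par i → E (X i) = 0) (c : Par K C.q) (s : C.S0 p) :
    C.descOp g E (c • s) = c • C.descOp g E s := by
  obtain ⟨f, rfl⟩ := C.qm_surjective p s
  rw [par_smul, descOp_qm, descOp_qm, par_smul, Derivation.leibniz,
    C.derivation_parHom E hE, smul_zero, add_zero, smul_eq_mul]
  congr 1
  ring

lemma rhoQ_par (x : ι → K) (c : Par K C.q) (s : C.S0 p) :
    C.rhoQ x (c • s) = c • C.rhoQ x s :=
  C.descOp_par _ _ (fun _ h => C.der_par x h) c s

lemma rhoQ'_par (x : ι → K) (c : Par K C.q) (s : C.S0 p) :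
    C.rhoQ' x (c • s) = c • C.rhoQ' x s :=
  C.descOp_par _ _ (fun _ h => C.der'_par x h) c s

end Core

end Vale.Agent.P200.PPow
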