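import Vale.Agent.P200.PPow.Operators
import Vale.Agent.P200.PPow.Veronese

/-!
What the truncated tensor algebra has to provide for the domain theorem and for the blocks.
-/

namespace Vale.Agent.P200.PPow

open MvPolynomial

namespace Core

variable {K : Type*} [Field K] {ι : Type} [Fintype ι] [DecidableEq ι] (C : Core K ι)

/-- No combination of generators has a vanishing `p`-th power: its power in the algebra is nonzero
or one of its coordinates with a free `p`-th power is nonzero. -/
def Aniso (p : ℕ) : Prop :=
  ∀ u : ι → K, (∀ i, C.par i → u i = 0) → u ≠ 0 →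
    C.pw (p - 1) u ≠ 0 ∨ ∃ i, ¬ C.killed i ∧ u i ≠ 0

/-- The iterated `p`-th powers. -/
noncomputable def piter (p : ℕ) (u : ι → K) : ℕ → ι → K
  | 0 => u
  | j + 1 => C.pw (p - 1) (piter p u j)

end Core

/-- The algebra of `n` orthogonal copies for a family `F` of forms of degree `p` on the exponents
of degree `p ^ k`. -/
structure WordData {K : Type*} [Field K] (p k : ℕ) {n : ℕ} {L : Type} [Fintype L]
    (F : L → MvPolynomial (Expn n (p ^ k)) K) where
  /-- the coordinates -/
  ι : Type
  [fin : Fintype ι]
  [dec : DecidableEq ι]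
  /-- the algebra -/
  C : Core K ι
  /-- the block of a coordinate -/
  blk : ι → Fin n
  /-- the letters -/
  letter : Fin n → Fin n → ι
  /-- the central coordinates of the forms -/
  zc : Fin n → L → ι
  blk_letter : ∀ b i, blk (letter b i) = b
  letter_inj : ∀ b, Function.Injective (letter b)
  letter_gen : ∀ b i, ¬ C.par (letter b i)
  deg_letter : ∀ b i, C.deg (letter b i) = 1
  par_zc : ∀ b l, C.par (zc b l)
  mu_blk : ∀ a c i, C.mu (Pi.single a 1) (Pi.single c 1) i ≠ 0 → blk a = blk c ∧ blk i = blk a
  aniso : C.Aniso p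
  piter_killed : ∀ (b : Fin n) (c : Fin n → K) (j : ℕ), j ≤ k → ∀ i,
    C.piter p (∑ m, c m • Pi.single (letter b m) 1) j i ≠ 0 → C.killed i
  piter_top : ∀ (b : Fin n) (c : Fin n → K),
    C.piter p (∑ m, c m • Pi.single (letter b m) 1) (k + 1) =
      ∑ l, eval c (mult K n (p ^ k) (F l)) • Pi.single (zc b l) 1

end Vale.Agent.P200.PPow
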