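import Vale.Agent.P200.PPow.Algebra
import Vale.Agent.P200.PPow.Spec
import Vale.Agent.P200.PMix.Domain

/-!
The algebra of an anisotropic core is a model, hence a domain.
-/

namespace Vale.Agent.P200.PPow

open MvPolynomial Module
open _root_.Vale.Agent.P200.Prime (Par)

set_option linter.unusedSectionVars false

namespace Core

universe u

variable {K : Type u} [Field K] {ι : Type} [Fintype ι] [DecidableEq ι] (C : Core K ι)
variable {p : ℕ} [hp : Fact p.Prime] [CharP K p]

/-- The vector of a combination of generators. -/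
noncomputable def ext (c : Fin C.r → K) : ι → K := ∑ k, c k • Pi.single (C.gi k) 1

lemma ext_gi (c : Fin C.r → K) (k : Fin C.r) : C.ext c (C.gi k) = c k := by
  simp [ext, Pi.single_apply, C.gi_injective.eq_iff]

lemma ext_par (c : Fin C.r → K) {i : ι} (hi : C.par i) : C.ext c i = 0 := by
  rw [ext, Finset.sum_apply]
  refine Finset.sum_eq_zero fun k _ => ?_
  rw [Pi.smul_apply, Pi.single_apply, if_neg (fun h => C.gi_not_par k (by rw [← h]; exact hi)),
    smul_zero]

lemma rhoQ_single_par {l : Fin C.q} (h : C.par (C.pi l)) :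
    C.rhoQ (p := p) (Pi.single (C.pi l) 1) = C.parMul p (X l) := by
  refine LinearMap.ext fun s => ?_
  obtain ⟨f, rfl⟩ := C.qm_surjective p s
  have hz : C.der (Pi.single (C.pi l) 1) = 0 := derivation_ext fun i => by
    rw [der_X, C.par_left _ h, map_zero]; rfl
  rw [rhoQ_qm, rho_apply, hz, parMul_apply, par_smul, parHom, aeval_X, pval, mult, if_pos h,
    lin_single, one_smul, pow_one]
  simp

lemma coe_gen_sum (c : Fin C.r → K) :
    ((∑ k, c k • C.gen p k : C.R p) : Module.End K (C.S0 p)) = C.rhoQ (C.ext c) := by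
  rw [ext, map_sum, AddSubmonoidClass.coe_finsetSum]
  exact Finset.sum_congr rfl fun k _ => by rw [map_smul]; rfl

lemma parMul_linear (a : Fin C.q → K) :
    C.parMul p (∑ l, MvPolynomial.C (a l) * X l) = ∑ l, a l • C.parMul p (X l) := by
  rw [map_sum]
  exact Finset.sum_congr rfl fun l _ => by rw [← smul_eq_C_mul, map_smul]

open Classical in
/-- The central part of a vector. -/
noncomputable def parCoef (y : ι → K) (l : Fin C.q) : K := if C.par (C.pi l) then y (C.pi l) else 0

lemma rhoQ_split (y : ι → K) : C.rhoQ (p := p) y =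
    ((∑ k, y (C.gi k) • C.gen p k : C.R p) : Module.End K (C.S0 p)) +
      C.parMul p (∑ l, MvPolynomial.C (C.parCoef y l) * X l) := by
  classical
  rw [parMul_linear]
  conv_lhs => rw [pi_eq_sum_univ' y, map_sum,
    ← Finset.sum_filter_add_sum_filter_not Finset.univ (fun i => ¬ C.par i)]
  refine congrArg₂ (· + ·) ?_ ?_
  · rw [AddSubmonoidClass.coe_finsetSum]
    symm
    refine Finset.sum_bij (fun k _ => C.gi k) (fun k _ => by simp [C.gi_not_par k])
      (fun k _ k' _ h => C.gi_injective h) (fun i hi => ?_) (fun k _ => by rw [map_smul]; rfl)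
    obtain ⟨k, hk⟩ := C.exists_gi (Finset.mem_filter.1 hi).2
    exact ⟨k, Finset.mem_univ _, hk⟩
  · have hz : ∑ l, C.parCoef y l • C.parMul p (X l) =
        ∑ l ∈ Finset.univ.filter (fun l => C.par (C.pi l)), C.parCoef y l • C.parMul p (X l) := by
      rw [Finset.sum_filter]
      refine Finset.sum_congr rfl fun l _ => ?_
      split_ifs with h
      · rfl
      · rw [parCoef, if_neg h, zero_smul]
    rw [hz]
    symm
    refine Finset.sum_bij (fun l _ => C.pi l) (fun l hl => ?_)
      (fun k _ k' _ h => C.pi_injective h) (fun i hi => ?_) (fun l hl => ?_)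
    · simpa using (Finset.mem_filter.1 hl).2
    · have hpar : C.par i := by simpa using (Finset.mem_filter.1 hi).2
      obtain ⟨l, hl⟩ := C.exists_pi fun hk => C.killed_not_par i hk hpar
      exact ⟨l, Finset.mem_filter.2 ⟨Finset.mem_univ _, hl ▸ hpar⟩, hl⟩
    · have h := (Finset.mem_filter.1 hl).2
      rw [map_smul, C.rhoQ_single_par h, parCoef, if_pos h]

open Classical in
/-- The parameter part of a power. -/
noncomputable def pa (c : Fin C.r → K) (l : Fin C.q) : K :=
  if C.par (C.pi l) then C.pw (p - 1) (C.ext c) (C.pi l) else C.ext c (C.pi l) ^ p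

lemma power_eq (c : Fin C.r → K) : (∑ k, c k • C.gen p k) ^ p =
    (∑ k, C.pw (p - 1) (C.ext c) (C.gi k) • C.gen p k) +
      algebraMap (Par K C.q) (C.R p) (∑ l, MvPolynomial.C (C.pa (p := p) c l) * X l) := by
  classical
  refine Subtype.ext ?_
  rw [SubmonoidClass.coe_pow, AddMemClass.coe_add, algebraMap_R, coe_gen_sum, rhoQ_pow,
    C.rhoQ_split, add_assoc]
  congr 1
  refine LinearMap.ext fun s => ?_
  rw [LinearMap.add_apply, parMul_apply, parMul_apply, LinearMap.mulLeft_apply, map_sum,
    Finset.sum_mul]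
  simp only [Finset.sum_smul, mul_smul, ← MvPolynomial.algebraMap_eq, algebraMap_smul]
  have hterm : ∀ i, C.qm p (C.ext c i ^ p • (X i : MvPolynomial ι K) ^ p) * s =
      if h : C.killed i ∨ C.par i then 0 else
        C.ext c i ^ p • ((X (C.parEquiv.symm ⟨i, fun hk => h (Or.inl hk)⟩) : Par K C.q) • s) := by
    intro i
    split_ifs with h
    · rcases h with hk | hpar
      · rw [map_smul, smul_mul_assoc, (C.qm_eq_zero p).2 fun γ hγ => ⟨i, hk, ?_⟩, zero_mul,
          smul_zero]
        rw [X_pow_eq_monomial] at hγ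
        rw [Finset.mem_singleton.1 (support_monomial_subset hγ)]
        simp
      · rw [C.ext_par c hpar, zero_pow hp.out.ne_zero, zero_smul, map_zero, zero_mul]
    · obtain ⟨hk, hpar⟩ := not_or.1 h
      have hpi : C.pi (C.parEquiv.symm ⟨i, hk⟩) = i := by simp [pi]
      rw [map_smul, smul_mul_assoc]
      congr 1
      rw [Algebra.smul_def, algebraMap_S0, parHom, aeval_X, pval, mult, if_neg (hpi.symm ▸ hpar),
        hpi]
  rw [Finset.sum_congr rfl fun i _ => hterm i]
  have hl : ∀ l, C.parCoef (C.pw (p - 1) (C.ext c)) l • ((X l : Par K C.q) • s) +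
      (if C.par (C.pi l) then 0 else C.ext c (C.pi l) ^ p • ((X l : Par K C.q) • s)) =
      C.pa (p := p) c l • ((X l : Par K C.q) • s) := fun l => by
    unfold parCoef pa
    split_ifs <;> simp
  rw [← Finset.sum_congr rfl fun l _ => hl l, Finset.sum_add_distrib]
  congr 1
  symm
  calc ∑ l, (if C.par (C.pi l) then 0 else C.ext c (C.pi l) ^ p • ((X l : Par K C.q) • s))
      = ∑ l ∈ Finset.univ.filter (fun l => ¬ C.par (C.pi l)),
          C.ext c (C.pi l) ^ p • ((X l : Par K C.q) • s) := by
        rw [Finset.sum_filter]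
        exact Finset.sum_congr rfl fun l _ => by split_ifs <;> rfl
    _ = _ := by
        refine Finset.sum_bij_ne_zero (fun l _ _ => C.pi l) (fun _ _ _ => Finset.mem_univ _)
          (fun a _ _ b _ _ h => C.pi_injective h) (fun i _ hi => ?_) (fun l hl _ => ?_)
        · by_cases h : C.killed i ∨ C.par i
          · rw [dif_pos h] at hi; exact absurd rfl hi
          · obtain ⟨hk, hpar⟩ := not_or.1 h
            refine ⟨C.parEquiv.symm ⟨i, hk⟩, Finset.mem_filter.2 ⟨Finset.mem_univ _, ?_⟩, ?_, ?_⟩
            · simp only [pi, Equiv.apply_symm_apply]; exact hpar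
            · rw [dif_neg h] at hi
              simp only [pi, Equiv.apply_symm_apply]; exact hi
            · simp [pi]
        · have h := (Finset.mem_filter.1 hl).2
          rw [dif_neg (not_or.2 ⟨C.pi_not_killed l, h⟩)]
          congr 2
          simp [pi]

/-- Vectors supported in degrees at least `m`. -/
def Above (m : ℕ) (u : ι → K) : Prop := ∀ i, u i ≠ 0 → m ≤ C.deg i

lemma Above.mu {a b : ℕ} {u v : ι → K} (hu : C.Above a u) (hv : C.Above b v) :
    C.Above (a + b) (C.mu u v) := by
  intro i hi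
  rw [pi_eq_sum_univ' u, pi_eq_sum_univ' v] at hi
  simp only [map_sum, map_smul, LinearMap.coe_sum, Finset.sum_apply, LinearMap.smul_apply,
    Pi.smul_apply, smul_eq_mul] at hi
  obtain ⟨y, -, hy⟩ := Finset.exists_ne_zero_of_sum_ne_zero hi
  obtain ⟨hvy, hy'⟩ := mul_ne_zero_iff.1 hy
  obtain ⟨x, -, hx⟩ := Finset.exists_ne_zero_of_sum_ne_zero hy'
  obtain ⟨hux, hx'⟩ := mul_ne_zero_iff.1 hx
  exact le_trans (Nat.add_le_add (hu x hux) (hv y hvy)) (C.filtered x y i hx')

lemma above_add {m : ℕ} {u v : ι → K} (hu : C.Above m u) (hv : C.Above m v) :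
    C.Above m (u + v) := by
  intro i hi
  by_cases h : u i = 0
  · exact hv i (by simpa [h] using hi)
  · exact hu i h

lemma above_one (u : ι → K) : C.Above 1 u := fun i _ => C.deg_pos i

lemma pw_succ (t : ℕ) (x : ι → K) : C.pw (t + 1) x = C.mu x (C.pw t x) := by
  rw [pw, pw, pow_succ', Module.End.mul_apply]

lemma pw_above (x : ι → K) : ∀ t, C.Above (t + 1) (C.pw t x) := by
  intro t
  induction t with
  | zero => exact C.above_one _
  | succ t ih =>
    rw [pw_succ, Nat.add_comm (t + 1) 1]
    exact (C.above_one x).mu C ih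

lemma pw_diff (x w : ι → K) {d : ℕ} (hw : C.Above d w) :
    ∀ t, C.Above (d + t) (C.pw t (x + w) - C.pw t x) := by
  intro t
  induction t with
  | zero => simpa [pw] using hw
  | succ t ih =>
    rw [pw_succ, pw_succ, show C.mu (x + w) (C.pw t (x + w)) - C.mu x (C.pw t x) =
      C.mu w (C.pw t (x + w)) + C.mu x (C.pw t (x + w) - C.pw t x) by
      rw [map_add, LinearMap.add_apply, map_sub]; abel]
    refine C.above_add (hw.mu C (C.pw_above _ _)) ?_
    rw [show d + (t + 1) = 1 + (d + t) by omega]
    exact (C.above_one x).mu C ih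

lemma pc_shift (c : Fin C.r → K) (j : Fin C.r) (s : K) (k : Fin C.r) (h : j ≤ k) :
    C.pw (p - 1) (C.ext (c + Pi.single j s)) (C.gi k) = C.pw (p - 1) (C.ext c) (C.gi k) := by
  have hext : C.ext (c + Pi.single j s) = C.ext c + s • Pi.single (C.gi j) 1 := by
    simp [ext, add_smul, Finset.sum_add_distrib, Pi.single_apply, ite_smul]
  have hw : C.Above (C.deg (C.gi j)) (s • Pi.single (C.gi j) (1 : K)) := by
    intro i hi
    by_cases h' : i = C.gi j
    · rw [h']
    · simp [h'] at hi
  rw [hext, ← sub_eq_zero, ← Pi.sub_apply]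
  by_contra hne
  have h1 := C.pw_diff (C.ext c) _ hw (p - 1) _ hne
  have := C.gi_antitone h
  have := hp.out.two_le
  omega

lemma bracket_eq (i j : Fin C.r) : ∃ c : Fin C.r → K, (∀ k, c k ≠ 0 → k < i ∧ k < j) ∧
    ∃ a : Fin C.q → C.R p, C.gen p i * C.gen p j - C.gen p j * C.gen p i =
      (∑ k, c k • C.gen p k) + ∑ l, algebraMap (Par K C.q) (C.R p) (X l) * a l := by
  set y := C.mu (Pi.single (C.gi i) 1) (Pi.single (C.gi j) 1) -
    C.mu (Pi.single (C.gi j) 1) (Pi.single (C.gi i) 1)
  refine ⟨fun k => y (C.gi k), fun k hk => ?_, fun l => C.parCoef y l • (1 : C.R p),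
    Subtype.ext ?_⟩
  · have hdeg : C.deg (C.gi i) + C.deg (C.gi j) ≤ C.deg (C.gi k) := by
      by_cases h : C.mu (Pi.single (C.gi i) 1) (Pi.single (C.gi j) 1) (C.gi k) = 0
      · rw [Nat.add_comm]
        exact C.filtered _ _ _ fun h' => hk (by simp [y, h, h'])
      · exact C.filtered _ _ _ h
    have := C.deg_pos (C.gi i)
    have := C.deg_pos (C.gi j)
    exact ⟨C.gi_lt (by omega), C.gi_lt (by omega)⟩
  · rw [AddSubgroupClass.coe_sub, MulMemClass.coe_mul, MulMemClass.coe_mul, AddMemClass.coe_add,
      show (C.gen p i : Module.End K (C.S0 p)) = C.rhoQ (Pi.single (C.gi i) 1) from rfl,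
      show (C.gen p j : Module.End K (C.S0 p)) = C.rhoQ (Pi.single (C.gi j) 1) from rfl,
      rhoQ_bracket, C.rhoQ_split, parMul_linear]
    congr 1
    rw [AddSubmonoidClass.coe_finsetSum]
    refine Finset.sum_congr rfl fun l _ => ?_
    rw [mul_smul_comm, mul_one]
    rfl

variable (p) in
/-- The model. -/
noncomputable def model (hC : C.Aniso p) : PMix.LModel K p C.r C.q (C.R p) where
  gen := C.gen p
  pc c k := C.pw (p - 1) (C.ext c) (C.gi k)
  pa := C.pa
  spans := C.monR_spans p
  indep := C.monR_indep p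
  bracket := C.bracket_eq
  power := C.power_eq
  pc_zero := by
    funext k
    have : C.ext (0 : Fin C.r → K) = 0 := by simp [ext]
    rw [this, pw, map_zero]
    rfl
  pc_shift := C.pc_shift
  nondeg c hc hpc hpa := by
    have hu : C.ext c ≠ 0 := fun h => hc (funext fun k => by rw [← C.ext_gi c k, h]; rfl)
    rcases hC (C.ext c) (fun i hi => C.ext_par c hi) hu with h | ⟨i, hik, hiu⟩
    · refine h (funext fun i => ?_)
      by_cases hi : C.par i
      · obtain ⟨l, rfl⟩ := C.exists_pi fun hk => C.killed_not_par i hk hi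
        have := congrFun hpa l
        rwa [pa, if_pos hi] at this
      · obtain ⟨k, rfl⟩ := C.exists_gi hi
        exact congrFun hpc k
    · obtain ⟨l, rfl⟩ := C.exists_pi hik
      have := congrFun hpa l
      rw [pa, if_neg fun hp' => hiu (C.ext_par c hp')] at this
      exact hiu (pow_eq_zero_iff hp.out.ne_zero |>.1 this)

/-- The algebra of an anisotropic core has no zero divisors. -/
theorem noZeroDivisors [IsAlgClosed K] (hC : C.Aniso p) : NoZeroDivisors (C.R p) :=
  (C.model p hC).noZeroDivisors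

end Core

end Vale.Agent.P200.PPow
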