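import Vale.Agent.P200.PPow.Descend

/-!
Ordered products of the operators applied to one have the ordered monomials as leading terms, so
they form a basis over the parameters.
-/

namespace Vale.Agent.P200.PPow

open MvPolynomial Module
open _root_.Vale.Agent.P200.Prime (Par)

set_option linter.unusedSectionVars false

/-- A family differing from a basis by lower terms is a basis. -/
lemma triangular {P M : Type*} [CommRing P] [AddCommGroup M] [Module P M] {A : Type*} [Fintype A]
    (b : Basis A P M) (wt : A → ℕ) (v : A → M)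
    (h : ∀ a, v a - b a ∈ Submodule.span P (b '' {c | wt c < wt a})) :
    LinearIndependent P v ∧ Submodule.span P (Set.range v) = ⊤ := by
  classical
  refine ⟨Fintype.linearIndependent_iff.2 fun c hc => ?_, ?_⟩
  · by_contra hne
    push Not at hne
    obtain ⟨a, ha, hmax⟩ := (Finset.univ.filter fun a => c a ≠ 0).exists_max_image wt
      ⟨hne.choose, by simpa using hne.choose_spec⟩
    simp only [Finset.mem_filter, Finset.mem_univ, true_and] at ha hmax
    apply ha
    have h0 := congrArg (fun x => b.repr x a) hc
    simp only [map_sum, map_smul, map_zero, Finsupp.zero_apply, Finsupp.finsetSum_apply,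
      Finsupp.smul_apply, smul_eq_mul] at h0
    have hrepr : ∀ a', wt a' ≤ wt a → b.repr (v a') a = if a' = a then 1 else 0 := by
      intro a' hle
      have hz : b.repr (v a' - b a') a = 0 := by
        have := b.mem_span_image.1 (h a')
        by_contra hcon
        have hlt : wt a < wt a' := this (Finsupp.mem_support_iff.2 hcon)
        omega
      rw [map_sub, Finsupp.sub_apply, sub_eq_zero] at hz
      rw [hz, b.repr_self, Finsupp.single_apply]
    rw [Finset.sum_eq_single a] at h0
    · rwa [hrepr a le_rfl, if_pos rfl, mul_one] at h0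
    · intro a' _ hne'
      rcases eq_or_ne (c a') 0 with h' | h'
      · rw [h', zero_mul]
      · rw [hrepr a' (hmax a' h'), if_neg hne', mul_zero]
    · simp
  · refine eq_top_iff.2 (b.span_eq.ge.trans (Submodule.span_le.2 ?_))
    rintro _ ⟨a, rfl⟩
    induction hk : wt a using Nat.strong_induction_on generalizing a with
    | _ k ih =>
      have h1 : v a - b a ∈ Submodule.span P (Set.range v) := by
        refine Submodule.span_le.2 ?_ (h a)
        rintro _ ⟨c, hc, rfl⟩
        exact ih (wt c) (by subst hk; exact hc) c rfl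
      have := sub_mem (Submodule.subset_span (Set.mem_range_self a) :
        v a ∈ Submodule.span P (Set.range v)) h1
      rwa [sub_sub_cancel] at this

namespace Core

variable {K : Type*} [Field K] {ι : Type} [Fintype ι] [DecidableEq ι] (C : Core K ι)
variable {p : ℕ} [hp : Fact p.Prime] [CharP K p]

/-- Images of polynomials of degree below `m`. -/
noncomputable def below (m : ℕ) : Submodule K (C.S0 p) :=
  (restrictSupport K {γ : ι →₀ ℕ | γ.degree < m}).map (C.qm p).toLinearMap

/-- An operator sends one to a leading form of degree `m` plus lower terms. -/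
def Lead (T : Module.End K (C.S0 p)) (g : MvPolynomial ι K) (m : ℕ) : Prop :=
  IsWeightedHomogeneous (1 : ι → ℕ) g m ∧ T 1 - C.qm p g ∈ C.below m

lemma isHomogeneous_lin (u : ι → K) :
    IsWeightedHomogeneous (1 : ι → ℕ) (lin u : MvPolynomial ι K) 1 := by
  rw [← mem_weightedHomogeneousSubmodule, lin_apply]
  refine Submodule.sum_mem _ fun i _ => Submodule.smul_mem _ _ ?_
  exact isWeightedHomogeneous_X K 1 i

lemma support_of_homogeneous {g : MvPolynomial ι K} {m : ℕ}
    (hg : IsWeightedHomogeneous (1 : ι → ℕ) g m) :
    g ∈ restrictSupport K {γ : ι →₀ ℕ | γ.degree < m + 1} := by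
  rw [mem_restrictSupport_iff]
  intro γ hγ
  have := hg (mem_support_iff.1 hγ)
  rw [show Finsupp.weight (1 : ι → ℕ) γ = γ.degree from (congrFun (congrArg DFunLike.coe (Finsupp.degree_eq_weight_one (σ := ι) (R := ℕ))) γ).symm] at this
  simpa using this.le

lemma lead_one : C.Lead (p := p) 1 1 0 :=
  ⟨isWeightedHomogeneous_one K 1, by simp⟩

lemma lead_desc (y : ι → K) (E : Derivation K (MvPolynomial ι K) (MvPolynomial ι K))
    (hE : ∀ i, IsWeightedHomogeneous (1 : ι → ℕ) (E (X i)) 1) {T : Module.End K (C.S0 p)}
    {g : MvPolynomial ι K} {m : ℕ} (hT : C.Lead T g m) :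
    C.Lead (C.descOp (lin y) E * T) (lin y * g) (m + 1) := by
  refine ⟨by rw [Nat.add_comm]; exact (isHomogeneous_lin y).mul hT.1, ?_⟩
  obtain ⟨f, hf, hfe⟩ := hT.2
  have hT1 : T 1 = C.qm p (g + f) := by
    rw [AlgHom.toLinearMap_apply] at hfe
    rw [map_add, hfe, add_sub_cancel]
  rw [Module.End.mul_apply, hT1, descOp_qm, ← map_sub]
  refine Submodule.mem_map_of_mem (f := (C.qm p).toLinearMap) ?_
  rw [show lin y * (g + f) + E (g + f) - lin y * g = E g + (lin y * f + E f) by
    rw [map_add]; ring]
  refine Submodule.add_mem _ (support_of_homogeneous ?_) ?_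
  · simpa using derivation_homogeneous E 1 0 (fun i => by simpa using hE i) hT.1
  · have hf' := (mem_restrictSupport_iff _).1 hf
    rw [f.as_sum, map_sum, Finset.mul_sum, ← Finset.sum_add_distrib]
    refine Submodule.sum_mem _ fun γ hγ => ?_
    have hlt : γ.degree < m := hf' hγ
    have hmono : IsWeightedHomogeneous (1 : ι → ℕ) (monomial γ (coeff γ f)) γ.degree :=
      isWeightedHomogeneous_monomial _ _ _ (congrFun (congrArg DFunLike.coe (Finsupp.degree_eq_weight_one (σ := ι) (R := ℕ))) γ).symm
    refine Submodule.add_mem _ (restrictSupport_mono K ?_ (support_of_homogeneous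
      ((isHomogeneous_lin y).mul hmono))) (restrictSupport_mono K ?_ (support_of_homogeneous
      (derivation_homogeneous E 1 0 (fun i => by simpa using hE i) hmono)))
    · intro δ hδ
      simp only [Set.mem_ofPred_eq] at hδ ⊢
      omega
    · intro δ hδ
      simp only [Set.mem_ofPred_eq] at hδ ⊢
      omega

/-- An ordered product of a family of operators. -/
noncomputable def word (op : Fin C.r → Module.End K (C.S0 p)) (α : Fin C.r → Fin p) :
    Module.End K (C.S0 p) :=
  ((List.finRange C.r).map fun k => op k ^ (α k : ℕ)).prod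

lemma degree_le_expo' (β : Fin C.q →₀ ℕ) (α : Fin C.r → Fin p) :
    ∑ k, (α k : ℕ) ≤ (C.expo' p β fun k => α k).degree := by
  rw [expo', map_add, map_sum, map_sum]
  simp [Finsupp.degree_single]

lemma below_le (m : ℕ) :
    ∀ x ∈ C.below (p := p) m, x ∈ Submodule.span (Par K C.q)
      (C.xBasis p '' {α : Fin C.r → Fin p | ∑ k, (α k : ℕ) < m}) := by
  rintro _ ⟨f, hf, rfl⟩
  rw [AlgHom.toLinearMap_apply, f.as_sum, map_sum]
  refine Submodule.sum_mem _ fun γ hγ => ?_
  rw [show monomial γ (coeff γ f) = coeff γ f • monomial γ (1 : K) by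
    rw [smul_monomial, smul_eq_mul, mul_one], map_smul, ← algebraMap_smul (Par K C.q) (coeff γ f)]
  refine Submodule.smul_mem _ _ ?_
  rcases C.qm_monomial_mem p γ with h | ⟨β, α, he, h⟩
  · rw [h]; exact zero_mem _
  · rw [h]
    refine Submodule.smul_mem _ _ (Submodule.subset_span ⟨α, ?_, C.xBasis_apply p α⟩)
    show ∑ k, (α k : ℕ) < m
    have hlt : γ.degree < m := (mem_restrictSupport_iff _).1 hf hγ
    exact lt_of_le_of_lt (he ▸ C.degree_le_expo' β α) hlt

/-- Ordered products of operators `L + E`, one for each generator, give a basis. -/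
theorem word_basis (E : Fin C.r → Derivation K (MvPolynomial ι K) (MvPolynomial ι K))
    (hE : ∀ k i, IsWeightedHomogeneous (1 : ι → ℕ) (E k (X i)) 1) :
    LinearIndependent (Par K C.q) (fun α => C.word (p := p)
        (fun k => C.descOp (lin (Pi.single (C.gi k) 1)) (E k)) α 1) ∧
      Submodule.span (Par K C.q) (Set.range fun α => C.word (p := p)
        (fun k => C.descOp (lin (Pi.single (C.gi k) 1)) (E k)) α 1) = ⊤ := by
  refine triangular (C.xBasis p) (fun α => ∑ k, (α k : ℕ)) _ fun α => C.below_le _ _ ?_
  set op := fun k => C.descOp (p := p) (lin (Pi.single (C.gi k) 1)) (E k)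
  have hlist : ∀ l : List (Fin C.r), C.Lead (l.map fun k => op k ^ (α k : ℕ)).prod
      (l.map fun k => (X (C.gi k) : MvPolynomial ι K) ^ (α k : ℕ)).prod
      (l.map fun k => (α k : ℕ)).sum := by
    intro l
    induction l with
    | nil => simpa using C.lead_one
    | cons k l ih =>
      simp only [List.map_cons, List.prod_cons, List.sum_cons]
      generalize (α k : ℕ) = a
      induction a with
      | zero => simpa using ih
      | succ a iha =>
        have h := C.lead_desc (Pi.single (C.gi k) 1) (E k) (hE k) iha
        rw [show (lin (Pi.single (C.gi k) 1) : MvPolynomial ι K) = X (C.gi k) by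
          rw [lin_single, one_smul]] at h
        rw [pow_succ', pow_succ', mul_assoc, mul_assoc, show a + 1 + (List.map (fun k => (α k : ℕ)) l).sum =
          a + (List.map (fun k => (α k : ℕ)) l).sum + 1 by omega]
        simpa [op, lin_single] using h
  have h := (hlist (List.finRange C.r)).2
  rw [← List.ofFn_eq_map, ← List.ofFn_eq_map, ← List.ofFn_eq_map, List.prod_ofFn (f := fun k =>
    (X (C.gi k) : MvPolynomial ι K) ^ (α k : ℕ)), List.sum_ofFn, List.ofFn_eq_map] at h
  rw [xBasis_apply]
  exact h

end Core

end Vale.Agent.P200.PPow
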