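import Mathlib
import Vale.Agent.P200.Prime.Model
import Vale.Agent.P200.Prime.Jacobson

/-!
An associative algebra `B` acting on the polynomials in its coordinates by multiplication plus the
derivation extending left multiplication: a representation of the commutator bracket with an exact
formula for `p`-th powers, commuting with the same construction for right multiplication.
-/

namespace Vale.Agent.P200.PPow

open MvPolynomial

/-- A filtered associative algebra in coordinates, with central coordinates `par` annihilating
everything and a set of coordinates `killed`. -/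
structure Core (K : Type*) [Field K] (ι : Type) [Fintype ι] [DecidableEq ι] where
  /-- the degrees -/
  deg : ι → ℕ
  /-- the product -/
  mu : (ι → K) →ₗ[K] (ι → K) →ₗ[K] (ι → K)
  /-- the coordinates of the central part -/
  par : ι → Prop
  /-- the coordinates whose `p`-th powers vanish -/
  killed : ι → Prop
  deg_pos : ∀ i, 0 < deg i
  assoc : ∀ x y z, mu (mu x y) z = mu x (mu y z)
  filtered : ∀ a b i, mu (Pi.single a 1) (Pi.single b 1) i ≠ 0 → deg a + deg b ≤ deg i
  par_left : ∀ i, par i → ∀ x, mu (Pi.single i 1) x = 0
  par_right : ∀ i, par i → ∀ x, mu x (Pi.single i 1) = 0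
  killed_not_par : ∀ i, killed i → ¬ par i

namespace Core

variable {K : Type*} [Field K] {ι : Type} [Fintype ι] [DecidableEq ι] (C : Core K ι)

/-- A linear form in the coordinates. -/
noncomputable def lin : (ι → K) →ₗ[K] MvPolynomial ι K :=
  Fintype.linearCombination K (fun i => X i)

omit [DecidableEq ι] in
lemma lin_apply (u : ι → K) : lin u = ∑ i, u i • (X i : MvPolynomial ι K) :=
  Fintype.linearCombination_apply ..

lemma lin_single (i : ι) (c : K) : lin (Pi.single i c) = c • (X i : MvPolynomial ι K) :=
  Fintype.linearCombination_apply_single ..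

/-- The derivation extending left multiplication. -/
noncomputable def der (x : ι → K) : Derivation K (MvPolynomial ι K) (MvPolynomial ι K) :=
  mkDerivation K fun i => lin (C.mu x (Pi.single i 1))

/-- The derivation extending right multiplication. -/
noncomputable def der' (x : ι → K) : Derivation K (MvPolynomial ι K) (MvPolynomial ι K) :=
  mkDerivation K fun i => lin (C.mu (Pi.single i 1) x)

lemma der_lin (x u : ι → K) : C.der x (lin u) = lin (C.mu x u) := by
  conv_rhs => rw [pi_eq_sum_univ' u]
  simp [lin_apply, der, map_sum]

lemma der'_lin (x u : ι → K) : C.der' x (lin u) = lin (C.mu u x) := by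
  conv_rhs => rw [pi_eq_sum_univ' u]
  simp [lin_apply, der', map_sum]

lemma der_X (x : ι → K) (i : ι) : C.der x (X i) = lin (C.mu x (Pi.single i 1)) :=
  mkDerivation_X ..

lemma der'_X (x : ι → K) (i : ι) : C.der' x (X i) = lin (C.mu (Pi.single i 1) x) :=
  mkDerivation_X ..

/-- The representation. -/
noncomputable def rho : (ι → K) →ₗ[K] Module.End K (MvPolynomial ι K) where
  toFun x := LinearMap.mulLeft K (lin x) + (C.der x).toLinearMap
  map_add' x y := by
    have h : C.der (x + y) = C.der x + C.der y := derivation_ext fun i => by simp [der_X]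
    rw [h, map_add]
    ext f
    simp [add_mul]
    abel
  map_smul' c x := by
    have h : C.der (c • x) = c • C.der x := derivation_ext fun i => by simp [der_X]
    rw [h, map_smul]
    ext f
    simp

/-- The commuting representation. -/
noncomputable def rho' (x : ι → K) : Module.End K (MvPolynomial ι K) :=
  LinearMap.mulLeft K (lin x) + (C.der' x).toLinearMap

lemma rho_apply (x : ι → K) (f : MvPolynomial ι K) : C.rho x f = lin x * f + C.der x f := rfl

lemma rho'_apply (x : ι → K) (f : MvPolynomial ι K) : C.rho' x f = lin x * f + C.der' x f := rfl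

/-- The representation turns commutators into commutators. -/
theorem rho_bracket (x y : ι → K) :
    C.rho x * C.rho y - C.rho y * C.rho x = C.rho (C.mu x y - C.mu y x) := by
  have h : ⁅C.der x, C.der y⁆ = C.der (C.mu x y - C.mu y x) := derivation_ext fun i => by
    simp [Derivation.commutator_apply, der_X, der_lin, C.assoc]
  refine LinearMap.ext fun f => ?_
  have hf : C.der x (C.der y f) - C.der y (C.der x f) = C.der (C.mu x y - C.mu y x) f := by
    rw [← h, Derivation.commutator_apply]
  have hl : lin (C.mu x y - C.mu y x) = lin (C.mu x y) - lin (C.mu y x) := map_sub ..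
  rw [LinearMap.sub_apply, Module.End.mul_apply, Module.End.mul_apply, rho_apply, rho_apply,
    rho_apply, rho_apply, rho_apply, hl]
  simp only [map_add, Derivation.leibniz, smul_eq_mul, der_lin]
  linear_combination hf

/-- The two representations commute. -/
theorem rho_comm (x y : ι → K) : Commute (C.rho x) (C.rho' y) := by
  have h : ⁅C.der x, C.der' y⁆ = 0 := derivation_ext fun i => by
    simp [Derivation.commutator_apply, der_X, der'_X, der_lin, der'_lin, C.assoc]
  refine LinearMap.ext fun f => ?_
  have hf : C.der x (C.der' y f) - C.der' y (C.der x f) = 0 := by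
    rw [← Derivation.commutator_apply, h]; rfl
  simp only [Module.End.mul_apply, rho_apply, rho'_apply, map_add, Derivation.leibniz,
    smul_eq_mul, der_lin, der'_lin]
  linear_combination hf

/-- Left multiplication powers. -/
lemma mu_pow_apply (x y u : ι → K) :
    ∀ t : ℕ, C.mu ((C.mu x ^ t) y) u = (C.mu x ^ t) (C.mu y u) := by
  intro t
  induction t with
  | zero => simp
  | succ t ih => rw [pow_succ', Module.End.mul_apply, Module.End.mul_apply, C.assoc, ih]

/-- The power `x^(t+1)`. -/
noncomputable def pw (t : ℕ) (x : ι → K) : ι → K := (C.mu x ^ t) x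

lemma der_iterate (x u : ι → K) :
    ∀ t : ℕ, ((C.der x : MvPolynomial ι K →ₗ[K] MvPolynomial ι K) ^ t) (lin u) =
      lin ((C.mu x ^ t) u) := by
  intro t
  induction t with
  | zero => simp
  | succ t ih =>
    rw [pow_succ', pow_succ', Module.End.mul_apply, Module.End.mul_apply, ih]
    exact C.der_lin x _

omit [Fintype ι] [DecidableEq ι] in
/-- Brackets of a derivation with a multiplication. -/
lemma bra_der_mulLeft (E : Derivation K (MvPolynomial ι K) (MvPolynomial ι K))
    (g : MvPolynomial ι K) : ∀ k : ℕ,
    (Prime.bra K (E : Module.End K (MvPolynomial ι K)) ^ k) (LinearMap.mulLeft K g) =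
      LinearMap.mulLeft K (((E : Module.End K (MvPolynomial ι K)) ^ k) g) := by
  intro k
  induction k with
  | zero => simp
  | succ k ih =>
    rw [pow_succ', pow_succ', Module.End.mul_apply, Module.End.mul_apply, ih, Prime.bra_apply]
    refine LinearMap.ext fun f => ?_
    simp only [LinearMap.sub_apply, Module.End.mul_apply, LinearMap.mulLeft_apply,
      Derivation.coeFn_coe, Derivation.leibniz, smul_eq_mul]
    ring

variable {p : ℕ} [hp : Fact p.Prime] [CharP K p]

/-- The `p`-th power of the derivation. -/
lemma der_pow (x : ι → K) (f : MvPolynomial ι K) :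
    ((C.der x : Module.End K (MvPolynomial ι K)) ^ p) f = C.der (C.pw (p - 1) x) f := by
  set E : Module.End K (MvPolynomial ι K) := (C.der x : Module.End K (MvPolynomial ι K))
  have hleib : ∀ g h, (E ^ p) (g * h) = (E ^ p) g * h + g * (E ^ p) h := fun g h => by
    have h1 := Prime.bra_pow_char (K := K) hp.out E (LinearMap.mulLeft K g)
    rw [bra_der_mulLeft] at h1
    have := LinearMap.congr_fun h1 h
    simp only [LinearMap.sub_apply, Module.End.mul_apply, LinearMap.mulLeft_apply] at this
    linear_combination -this
  let Ep : Derivation K (MvPolynomial ι K) (MvPolynomial ι K) :=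
    { toLinearMap := E ^ p
      map_one_eq_zero' := by
        show (E ^ p) 1 = 0
        rw [← Nat.sub_add_cancel hp.out.pos, pow_succ, Module.End.mul_apply,
          show E 1 = 0 from Derivation.map_one_eq_zero _, map_zero]
      leibniz' := fun g h => by
        show (E ^ p) (g * h) = g • (E ^ p) h + h • (E ^ p) g
        rw [hleib, smul_eq_mul, smul_eq_mul]; ring }
  have : Ep = C.der (C.pw (p - 1) x) := derivation_ext fun i => by
    show (E ^ p) (X i) = _
    have h1 := C.der_iterate x (Pi.single i 1) p
    rw [lin_single, one_smul] at h1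
    rw [h1, der_X, pw, mu_pow_apply]
    congr 1
    conv_lhs => rw [← Nat.sub_add_cancel hp.out.pos, pow_succ, Module.End.mul_apply]
  exact congrArg (fun D : Derivation K (MvPolynomial ι K) (MvPolynomial ι K) => D f) this

omit [DecidableEq ι] in
lemma lin_pow (x : ι → K) : lin x ^ p = ∑ i, x i ^ p • (X i : MvPolynomial ι K) ^ p := by
  rw [lin_apply, sum_pow_char p]
  exact Finset.sum_congr rfl fun i _ => smul_pow ..

/-- The exact `p`-th power. -/
theorem rho_pow (x : ι → K) :
    C.rho x ^ p = C.rho (C.pw (p - 1) x) +
      LinearMap.mulLeft K (∑ i, x i ^ p • (X i : MvPolynomial ι K) ^ p) := by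
  show ((LinearMap.mulLeft K (lin x) : Module.End K (MvPolynomial ι K)) +
    (C.der x : Module.End K (MvPolynomial ι K))) ^ p = _
  rw [add_comm, Prime.add_pow_jacobson (K := K) hp.out fun k => by
    rw [bra_der_mulLeft]; exact (Commute.all _ _).map (Algebra.lmul K (MvPolynomial ι K))]
  refine LinearMap.ext fun f => ?_
  simp only [LinearMap.add_apply, bra_der_mulLeft, LinearMap.pow_mulLeft, LinearMap.mulLeft_apply,
    der_pow, der_iterate, rho_apply, pw, lin_pow]
  ring

end Core

end Vale.Agent.P200.PPow
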