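import Vale.Agent.P200.PPow.Operators

/-!
The polynomials in the coordinates modulo `p`-th powers of the killed coordinates, as a free module
over the parameters (central coordinates, `p`-th powers of the remaining ones).
-/

namespace Vale.Agent.P200.PPow

open MvPolynomial Module
open _root_.Vale.Agent.P200.Prime (Par)

namespace Core

variable {K : Type*} [Field K] {ι : Type} [Fintype ι] [DecidableEq ι] (C : Core K ι)

/-- Coordinates of generators. -/
abbrev GenIdx : Type := {i : ι // ¬ C.par i}

/-- Coordinates of parameters. -/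
abbrev ParIdx : Type := {i : ι // ¬ C.killed i}

/-- The number of generators. -/
noncomputable def r : ℕ := Nat.card C.GenIdx

/-- The number of parameters. -/
noncomputable def q : ℕ := Nat.card C.ParIdx

/-- The generators enumerated by decreasing degree. -/
noncomputable def genEquiv : Fin C.r ≃ C.GenIdx :=
  (Tuple.sort fun k => OrderDual.toDual (C.deg ((Finite.equivFin C.GenIdx).symm k).1)).trans
    (Finite.equivFin C.GenIdx).symm

/-- The parameters enumerated. -/
noncomputable def parEquiv : Fin C.q ≃ C.ParIdx := (Finite.equivFin C.ParIdx).symm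

/-- The coordinate of a generator. -/
noncomputable def gi (k : Fin C.r) : ι := (C.genEquiv k).1

/-- The coordinate of a parameter. -/
noncomputable def pi (l : Fin C.q) : ι := (C.parEquiv l).1

lemma gi_antitone {k l : Fin C.r} (h : k ≤ l) : C.deg (C.gi l) ≤ C.deg (C.gi k) :=
  OrderDual.toDual_le_toDual.1 (Tuple.monotone_sort
    (fun k => OrderDual.toDual (C.deg ((Finite.equivFin C.GenIdx).symm k).1)) h)

lemma gi_lt {k l : Fin C.r} (h : C.deg (C.gi l) < C.deg (C.gi k)) : k < l := by
  by_contra hle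
  exact absurd (C.gi_antitone (le_of_not_gt hle)) (not_le.2 h)

lemma gi_injective : Function.Injective C.gi :=
  Subtype.val_injective.comp C.genEquiv.injective

lemma pi_injective : Function.Injective C.pi :=
  Subtype.val_injective.comp C.parEquiv.injective

lemma gi_not_par (k : Fin C.r) : ¬ C.par (C.gi k) := (C.genEquiv k).2

lemma pi_not_killed (l : Fin C.q) : ¬ C.killed (C.pi l) := (C.parEquiv l).2

lemma exists_gi {i : ι} (h : ¬ C.par i) : ∃ k, C.gi k = i :=
  ⟨C.genEquiv.symm ⟨i, h⟩, by simp [gi]⟩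

lemma exists_pi {i : ι} (h : ¬ C.killed i) : ∃ l, C.pi l = i :=
  ⟨C.parEquiv.symm ⟨i, h⟩, by simp [pi]⟩

variable (p : ℕ)

open Classical in
/-- The exponent of the coordinate of a parameter. -/
noncomputable def mult (i : ι) : ℕ := if C.par i then 1 else p

/-- The value of a parameter. -/
noncomputable def pval (l : Fin C.q) : MvPolynomial ι K := X (C.pi l) ^ C.mult p (C.pi l)

/-- The parameters as polynomials. -/
noncomputable def parHom : Par K C.q →ₐ[K] MvPolynomial ι K := aeval (C.pval p)

/-- The ideal of `p`-th powers of killed coordinates. -/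
noncomputable def kIdeal : Ideal (MvPolynomial ι K) :=
  Ideal.span ((fun s => monomial s (1 : K)) '' ((fun i => Finsupp.single i p) '' {i | C.killed i}))

/-- The quotient. -/
def S0 : Type _ := MvPolynomial ι K ⧸ C.kIdeal p

noncomputable instance ringS0 : CommRing (C.S0 p) :=
  inferInstanceAs (CommRing (MvPolynomial ι K ⧸ C.kIdeal p))

noncomputable instance algS0 : Algebra K (C.S0 p) :=
  inferInstanceAs (Algebra K (MvPolynomial ι K ⧸ C.kIdeal p))

/-- The projection. -/
noncomputable def qm : MvPolynomial ι K →ₐ[K] C.S0 p := Ideal.Quotient.mkₐ K _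

lemma qm_surjective : Function.Surjective (C.qm p) := Ideal.Quotient.mkₐ_surjective K _

lemma qm_eq_zero {f : MvPolynomial ι K} :
    C.qm p f = 0 ↔ ∀ γ ∈ f.support, ∃ i, C.killed i ∧ p ≤ γ i := by
  show Ideal.Quotient.mk (C.kIdeal p) f = (0 : MvPolynomial ι K ⧸ C.kIdeal p) ↔ _
  rw [Ideal.Quotient.eq_zero_iff_mem, kIdeal, mem_ideal_span_monomial_image]
  simp [Finsupp.single_le_iff]

noncomputable instance algPar : Algebra (Par K C.q) (C.S0 p) :=
  ((C.qm p).comp (C.parHom p)).toRingHom.toAlgebra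

noncomputable instance modPar : Module (Par K C.q) (C.S0 p) := (C.algPar p).toModule

lemma algebraMap_S0 (c : Par K C.q) :
    algebraMap (Par K C.q) (C.S0 p) c = C.qm p (C.parHom p c) := rfl

lemma par_smul (c : Par K C.q) (f : MvPolynomial ι K) :
    c • C.qm p f = C.qm p (C.parHom p c * f) := by
  rw [Algebra.smul_def, algebraMap_S0, map_mul]

instance towerPar : IsScalarTower K (Par K C.q) (C.S0 p) :=
  IsScalarTower.of_algebraMap_eq fun a => by
    rw [algebraMap_S0, MvPolynomial.algebraMap_eq, parHom, aeval_C, AlgHom.commutes]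

/-- The exponent of a parameter monomial times an ordered monomial. -/
noncomputable def expo' (β : Fin C.q →₀ ℕ) (α : Fin C.r → ℕ) : ι →₀ ℕ :=
  (∑ l, Finsupp.single (C.pi l) (C.mult p (C.pi l) * β l)) + ∑ k, Finsupp.single (C.gi k) (α k)

lemma parHom_monomial (β : Fin C.q →₀ ℕ) (α : Fin C.r → ℕ) :
    C.parHom p (monomial β 1) * ∏ k, X (C.gi k) ^ α k = monomial (C.expo' p β α) 1 := by
  rw [parHom, aeval_monomial, map_one, one_mul, Finsupp.prod_fintype _ _ fun _ => pow_zero _,
    expo']
  simp only [pval, X_pow_eq_monomial, monomial_pow, one_pow, ← monomial_sum_one]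
  rw [monomial_mul, one_mul]
  simp [Finsupp.smul_single, mul_comm]

lemma expo'_pi (β : Fin C.q →₀ ℕ) (α : Fin C.r → ℕ) (l : Fin C.q) :
    C.expo' p β α (C.pi l) =
      C.mult p (C.pi l) * β l + ∑ k, if C.gi k = C.pi l then α k else 0 := by
  rw [expo', Finsupp.add_apply, Finsupp.finsetSum_apply, Finsupp.finsetSum_apply,
    Finset.sum_eq_single l (fun l' _ h => Finsupp.single_eq_of_ne (C.pi_injective.ne h).symm)
      (by simp), Finsupp.single_eq_same]
  exact congrArg _ (Finset.sum_congr rfl fun k _ => Finsupp.single_apply)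

lemma expo'_killed (β : Fin C.q →₀ ℕ) (α : Fin C.r → ℕ) {i : ι} (hi : C.killed i) :
    C.expo' p β α i = ∑ k, if C.gi k = i then α k else 0 := by
  rw [expo', Finsupp.add_apply, Finsupp.finsetSum_apply, Finsupp.finsetSum_apply,
    Finset.sum_eq_zero fun l _ => Finsupp.single_eq_of_ne
      (show i ≠ C.pi l by rintro rfl; exact C.pi_not_killed l hi), zero_add]
  exact Finset.sum_congr rfl fun k _ => Finsupp.single_apply

lemma sum_gi {i : ι} (k₀ : Fin C.r) (hk : C.gi k₀ = i) (α : Fin C.r → ℕ) :
    (∑ k, if C.gi k = i then α k else 0) = α k₀ := by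
  subst hk
  simp [C.gi_injective.eq_iff]

/-- The exponents determine the pair. -/
lemma expo'_inj (hp : 0 < p) {β β' : Fin C.q →₀ ℕ} {α α' : Fin C.r → Fin p}
    (h : C.expo' p β (fun k => α k) = C.expo' p β' (fun k => α' k)) : β = β' ∧ α = α' := by
  have hα : α = α' := by
    funext k
    have hk := DFunLike.congr_fun h (C.gi k)
    by_cases hkill : C.killed (C.gi k)
    · rw [expo'_killed _ _ _ _ hkill, expo'_killed _ _ _ _ hkill, C.sum_gi k rfl,
        C.sum_gi k rfl] at hk
      exact Fin.ext hk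
    · obtain ⟨l, hl⟩ := C.exists_pi hkill
      rw [← hl, expo'_pi, expo'_pi, C.sum_gi k hl.symm, C.sum_gi k hl.symm, mult,
        if_neg (hl ▸ C.gi_not_par k)] at hk
      have := congrArg (· % p) hk
      simp [Nat.mod_eq_of_lt] at this
      exact Fin.ext this
  subst hα
  refine ⟨Finsupp.ext fun l => ?_, rfl⟩
  have hl := DFunLike.congr_fun h (C.pi l)
  rw [expo'_pi, expo'_pi, Nat.add_right_cancel_iff] at hl
  refine Nat.eq_of_mul_eq_mul_left ?_ hl
  unfold mult
  split_ifs <;> omega

/-- Every exponent without killed `p`-th power is reached. -/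
lemma exists_expo' (hp : 0 < p) (γ : ι →₀ ℕ) (hγ : ∀ i, C.killed i → γ i < p) :
    ∃ (β : Fin C.q →₀ ℕ) (α : Fin C.r → Fin p), C.expo' p β (fun k => α k) = γ := by
  refine ⟨Finsupp.equivFunOnFinite.symm fun l => γ (C.pi l) / C.mult p (C.pi l),
    fun k => ⟨γ (C.gi k) % p, Nat.mod_lt _ hp⟩, Finsupp.ext fun i => ?_⟩
  by_cases hkill : C.killed i
  · obtain ⟨k, hk⟩ := C.exists_gi (C.killed_not_par i hkill)
    rw [expo'_killed _ _ _ _ hkill, C.sum_gi k hk]
    simp [hk, Nat.mod_eq_of_lt (hγ i hkill)]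
  · obtain ⟨l, rfl⟩ := C.exists_pi hkill
    rw [expo'_pi, Finsupp.equivFunOnFinite_symm_apply_apply]
    by_cases hpar : C.par (C.pi l)
    · rw [mult, if_pos hpar, Finset.sum_eq_zero fun k _ => if_neg fun e =>
        C.gi_not_par k (by rw [e]; exact hpar)]
      simp
    · obtain ⟨k, hk⟩ := C.exists_gi hpar
      rw [C.sum_gi k hk, mult, if_neg hpar]
      simp [hk, Nat.div_add_mod]

/-- The monomial of an index. -/
noncomputable def xm (α : Fin C.r → Fin p) : MvPolynomial ι K := ∏ k, X (C.gi k) ^ (α k : ℕ)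

lemma par_monomial_smul (β : Fin C.q →₀ ℕ) (α : Fin C.r → Fin p) :
    (monomial β (1 : K) : Par K C.q) • C.qm p (C.xm p α) =
      C.qm p (monomial (C.expo' p β fun k => α k) 1) := by
  rw [par_smul, xm, parHom_monomial]

lemma qm_monomial_mem [NeZero p] (γ : ι →₀ ℕ) :
    C.qm p (monomial γ 1) = 0 ∨ ∃ (β : Fin C.q →₀ ℕ) (α : Fin C.r → Fin p),
      C.expo' p β (fun k => α k) = γ ∧
        C.qm p (monomial γ 1) = (monomial β (1 : K) : Par K C.q) • C.qm p (C.xm p α) := by
  by_cases h : ∀ i, C.killed i → γ i < p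
  · obtain ⟨β, α, h'⟩ := C.exists_expo' p (NeZero.pos p) γ h
    exact Or.inr ⟨β, α, h', by rw [par_monomial_smul, h']⟩
  · push Not at h
    obtain ⟨i, hi, hle⟩ := h
    refine Or.inl ((C.qm_eq_zero p).2 fun δ hδ => ⟨i, hi, ?_⟩)
    rwa [Finset.mem_singleton.1 (support_monomial_subset hδ)]

theorem xm_indep [NeZero p] :
    LinearIndependent (Par K C.q) fun α : Fin C.r → Fin p => C.qm p (C.xm p α) := by
  classical
  rw [Fintype.linearIndependent_iff]
  intro c hc α
  refine MvPolynomial.ext _ _ fun β => ?_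
  rw [coeff_zero]
  by_contra hne
  simp only [par_smul, ← map_sum] at hc
  have hexp : ∀ α, C.parHom p (c α) * C.xm p α =
      ∑ δ ∈ (c α).support, coeff δ (c α) • monomial (C.expo' p δ fun k => α k) (1 : K) := by
    intro α
    conv_lhs => rw [(c α).as_sum, map_sum, Finset.sum_mul]
    refine Finset.sum_congr rfl fun δ _ => ?_
    rw [show monomial δ (coeff δ (c α)) = coeff δ (c α) • monomial δ (1 : K) by
      rw [smul_monomial, smul_eq_mul, mul_one], map_smul, smul_mul_assoc, xm, parHom_monomial]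
  have hco : coeff (C.expo' p β fun k => α k) (∑ α, C.parHom p (c α) * C.xm p α) =
      coeff β (c α) := by
    simp only [hexp, coeff_sum, coeff_smul, coeff_monomial, smul_eq_mul, mul_ite, mul_one, mul_zero]
    rw [Finset.sum_eq_single α, Finset.sum_eq_single β, if_pos rfl]
    · intro δ _ hδ
      rw [if_neg fun h => hδ (C.expo'_inj p (NeZero.pos p) h).1]
    · intro h
      rw [if_pos rfl, not_ne_iff.1 fun h' => h (mem_support_iff.2 h')]
    · intro α' _ hα'
      exact Finset.sum_eq_zero fun δ _ => if_neg fun h =>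
        hα' (C.expo'_inj p (NeZero.pos p) h).2
    · simp
  obtain ⟨i, hi, hle⟩ := (C.qm_eq_zero p).1 hc _ (mem_support_iff.2 (hco.trans_ne hne))
  obtain ⟨k, hk⟩ := C.exists_gi (C.killed_not_par i hi)
  rw [expo'_killed _ _ _ _ hi, C.sum_gi k hk] at hle
  have := (α k).2
  omega

theorem xm_spans [NeZero p] :
    Submodule.span (Par K C.q) (Set.range fun α : Fin C.r → Fin p => C.qm p (C.xm p α)) = ⊤ := by
  refine eq_top_iff.2 fun x _ => ?_
  obtain ⟨f, rfl⟩ := C.qm_surjective p x
  rw [f.as_sum, map_sum]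
  refine Submodule.sum_mem _ fun γ _ => ?_
  rw [show monomial γ (coeff γ f) = coeff γ f • monomial γ (1 : K) by
    rw [smul_monomial, smul_eq_mul, mul_one], map_smul, ← algebraMap_smul (Par K C.q) (coeff γ f)]
  refine Submodule.smul_mem _ _ ?_
  rcases C.qm_monomial_mem p γ with h | ⟨β, α, -, h⟩
  · rw [h]; exact zero_mem _
  · rw [h]; exact Submodule.smul_mem _ _ (Submodule.subset_span ⟨α, rfl⟩)

/-- The monomial basis over the parameters. -/
noncomputable def xBasis [NeZero p] : Basis (Fin C.r → Fin p) (Par K C.q) (C.S0 p) :=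
  Basis.mk (C.xm_indep p) (C.xm_spans p).ge

lemma xBasis_apply [NeZero p] (α : Fin C.r → Fin p) : C.xBasis p α = C.qm p (C.xm p α) :=
  Basis.mk_apply ..

end Core

end Vale.Agent.P200.PPow
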