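import Vale.Agent.P200.PPow.Quotient

/-!
Operators on the quotient, weights and leading monomials.
-/

namespace Vale.Agent.P200.PPow

open MvPolynomial Module
open _root_.Vale.Agent.P200.Prime (Par)

/-- A derivation raising the weights of the variables by `c` raises all weights by `c`. -/
lemma derivation_homogeneous {K : Type*} [Field K] {ι : Type*}
    (E : Derivation K (MvPolynomial ι K) (MvPolynomial ι K)) (w : ι → ℕ) (c : ℕ)
    (hE : ∀ i, IsWeightedHomogeneous w (E (X i)) (w i + c)) {f : MvPolynomial ι K} {m : ℕ}
    (hf : IsWeightedHomogeneous w f m) : IsWeightedHomogeneous w (E f) (m + c) := by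
  classical
  rw [← mem_weightedHomogeneousSubmodule]
  rw [f.as_sum, map_sum]
  refine Submodule.sum_mem _ fun γ hγ => ?_
  have hγm : Finsupp.weight w γ = m := hf (mem_support_iff.1 hγ)
  rw [show monomial γ (coeff γ f) = coeff γ f • monomial γ (1 : K) by
    rw [smul_monomial, smul_eq_mul, mul_one], Derivation.map_smul]
  refine Submodule.smul_mem _ _ ?_
  subst hγm
  clear hγ hf
  induction γ using Finsupp.induction with
  | zero =>
    rw [show E (monomial (0 : ι →₀ ℕ) (1 : K)) = 0 from E.map_one_eq_zero]
    exact zero_mem _
  | single_add i b γ _ _ ih =>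
    have hmono := isWeightedHomogeneous_monomial w γ (1 : K) rfl
    rw [show (monomial (Finsupp.single i b + γ) (1 : K) : MvPolynomial ι K) =
      X i ^ b * monomial γ 1 by rw [monomial_single_add], Derivation.leibniz,
      Derivation.leibniz_pow]
    simp only [smul_eq_mul, map_add, Finsupp.weight_single]
    refine Submodule.add_mem _ ?_ ?_
    · rw [mem_weightedHomogeneousSubmodule]
      convert ((isWeightedHomogeneous_X K w i).pow b).mul ih using 1
      simp [add_assoc]
    · rcases Nat.eq_zero_or_pos b with rfl | hb
      · simp
      · rw [mul_smul_comm]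
        refine nsmul_mem ?_ _
        rw [mem_weightedHomogeneousSubmodule]
        convert hmono.mul (((isWeightedHomogeneous_X K w i).pow (b - 1)).mul (hE i)) using 1
        obtain ⟨b, rfl⟩ := Nat.exists_eq_add_of_le hb
        simp only [smul_eq_mul, Nat.add_sub_cancel_left, Nat.add_mul, Nat.one_mul]
        ring

end Vale.Agent.P200.PPow
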